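import Vale.Agent.P286.H527.Free

/-!
# The action of a one-parameter group of automorphisms
-/

namespace Vale.Agent.P286

open CategoryTheory TensorProduct

variable {T : Site} {s : ℂ} {K : TCx T s}

/-- The situation: `R Y` is the ring of Laurent polynomials over `R X` in the variable `e 1`, with
the Euler vector field `v`, and `σ` is an endomorphism of `Y` over `R Y`. -/
structure GmData (T : Site) (X Y : T.C) where
  ι : X ⟶ Y
  e : ℤ → T.R Y
  E : letI : Module (T.R X) (T.R Y) := Module.compHom (T.R Y) (T.res ι).toRingHom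
      (ℤ →₀ T.R X) ≃ₗ[T.R X] T.R Y
  hE : ∀ k, E (Finsupp.single k 1) = e k
  e_zero : e 0 = 1
  v : T.Der Y
  v_res : ∀ a, v (T.res ι a) = 0
  v_e : ∀ k : ℤ, v (e k) = (k : T.R Y) * e k
  v_dl : v (T.dl ι : T.R Y) = 0
  σ : Y ⟶ Y
  res_σ : T.res σ = AlgHom.id ℂ (T.R Y)
  c : ℂ
  v_dlσ : v (T.dl σ : T.R Y) = algebraMap ℂ (T.R Y) c * (T.dl σ : T.R Y)

namespace GmData

variable {X Y : T.C} (D : GmData T X Y)

theorem act_ι (j : ℤ) (x : K.obj j X) :
    (HomologicalComplex.X K j).act Y D.v (K.map D.ι j x) = 0 := by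
  have h := (HomologicalComplex.X K j).map_act D.ι D.v 0 ![] ![] (by intro a; simp [D.v_res]) x
  rw [D.v_dl, mul_zero, zero_smul, sub_zero] at h
  simpa [TCx.map] using h

theorem act_σ (j : ℤ) (x : K.obj j Y) :
    (HomologicalComplex.X K j).act Y D.v (K.map D.σ j x) =
      K.map D.σ j ((HomologicalComplex.X K j).act Y D.v x) -
        algebraMap ℂ (T.R Y) (s * D.c) • K.map D.σ j x := by
  have h := (HomologicalComplex.X K j).map_act D.σ D.v 1 ![1] ![D.v]
    (by intro a; simp [D.res_σ]) x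
  rw [D.v_dlσ] at h
  have e : (algebraMap ℂ (T.R Y) s * ((T.dl D.σ)⁻¹ : (T.R Y)ˣ) *
      (algebraMap ℂ (T.R Y) D.c * (T.dl D.σ : T.R Y))) = algebraMap ℂ (T.R Y) (s * D.c) := by
    rw [_root_.map_mul]
    calc _ = algebraMap ℂ (T.R Y) s * algebraMap ℂ (T.R Y) D.c *
        (((T.dl D.σ)⁻¹ : (T.R Y)ˣ) * (T.dl D.σ : T.R Y)) := by ring
      _ = _ := by rw [Units.inv_mul, mul_one]
  rw [e] at h
  simpa [TCx.map] using h

/-- the main computation -/
theorem main (hK : Cartesian K) (j : ℤ) (z : K.obj j X) (hz : K.Cyc X j z) :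
    ∃ m : ℤ →₀ K.obj j X, (∀ k, K.Cyc X j (m k)) ∧
      K.Bd Y j (K.map D.σ j (K.map D.ι j z) - m.sum fun k x => D.e k • K.map D.ι j x) ∧
      ∀ k : ℤ, (k : ℂ) + s * D.c ≠ 0 → K.Bd X j (m k) := by
  obtain ⟨m, hm, hbd⟩ := (hK.free D.ι D.e D.E D.hE j).2 _ ((hz.map D.ι).map D.σ)
  refine ⟨m, hm, hbd, ?_⟩
  -- apply the vector field
  have h1 := hbd.act D.v
  have h2 : (HomologicalComplex.X K j).act Y D.v
      (m.sum fun k x => D.e k • K.map D.ι j x) =
      m.sum fun k x => D.e k • K.map D.ι j (algebraMap ℂ (T.R X) k • x) := by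
    have : ∀ (t : Finset ℤ) (g : ℤ → K.obj j Y), (HomologicalComplex.X K j).act Y D.v
        (∑ k ∈ t, g k) = ∑ k ∈ t, (HomologicalComplex.X K j).act Y D.v (g k) := by
      classical
      intro t g
      induction t using Finset.induction_on with
      | empty => simp
      | insert a t ha ih => rw [Finset.sum_insert ha, Finset.sum_insert ha, TDMod.act_add, ih]
    rw [Finsupp.sum, this, Finsupp.sum]
    refine Finset.sum_congr rfl fun k _ => ?_
    rw [TDMod.leibniz, D.v_e, D.act_ι, smul_zero, add_zero, TCx.map_smul, smul_smul]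
    congr 1
    simp [mul_comm]
  rw [TDMod.act_sub, h2, D.act_σ, D.act_ι, map_zero, zero_sub] at h1
  have h3 := (hbd.smul (algebraMap ℂ (T.R Y) (s * D.c))).add h1
  let m' : ℤ →₀ K.obj j X := Finsupp.onFinset m.support
    (fun k => algebraMap ℂ (T.R X) ((k : ℂ) + s * D.c) • m k)
    (fun k hk => by
      rw [Finsupp.mem_support_iff]
      intro h
      rw [h, smul_zero] at hk
      exact hk rfl)
  have h4 : K.Bd Y j (m'.sum fun k x => D.e k • K.map D.ι j x) := by
    obtain ⟨y, hy⟩ := h3.neg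
    refine ⟨y, hy.trans ?_⟩
    rw [Finsupp.onFinset_sum _ (fun k => by simp)]
    have h6 : ∀ k : ℤ, D.e k • K.map D.ι j
        (algebraMap ℂ (T.R X) ((k : ℂ) + s * D.c) • m k) =
        D.e k • K.map D.ι j (algebraMap ℂ (T.R X) k • m k) +
          algebraMap ℂ (T.R Y) (s * D.c) • D.e k • K.map D.ι j (m k) := by
      intro k
      rw [map_add, add_smul, map_add, smul_add, TCx.map_smul, TCx.map_smul, AlgHom.commutes,
        AlgHom.commutes, smul_comm (D.e k) (algebraMap ℂ (T.R Y) (s * D.c))]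
    simp only [Finsupp.sum, smul_sub, Finset.smul_sum]
    rw [Finset.sum_congr rfl fun k _ => h6 k, Finset.sum_add_distrib]
    abel
  have h5 := (hK.free D.ι D.e D.E D.hE j).1 m' (fun k => by
    change K.d X j (j + 1) (algebraMap ℂ (T.R X) ((k : ℂ) + s * D.c) • m k) = 0
    rw [K.d_smul, hm k, smul_zero]) h4
  intro k hk
  have h7 := (h5 k).smul (algebraMap ℂ (T.R X) ((k : ℂ) + s * D.c)⁻¹)
  obtain ⟨y, hy⟩ := h7
  refine ⟨y, hy.trans ?_⟩
  change _ • (algebraMap ℂ (T.R X) ((k : ℂ) + s * D.c) • m k) = m k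
  rw [smul_smul, ← _root_.map_mul, inv_mul_cancel₀ hk, map_one, one_smul]

/-- If no weight is resonant, then `K` is acyclic at `X`. -/
theorem acyclic (hK : Cartesian K) (σ' : Y ⟶ Y) (hσ : D.σ ≫ σ' = 𝟙 Y)
    (hc : ∀ k : ℤ, (k : ℂ) + s * D.c ≠ 0) (j : ℤ) (z : K.obj j X) (hz : K.Cyc X j z) :
    K.Bd X j z := by
  obtain ⟨m, hm, hbd, hm'⟩ := D.main hK j z hz
  have h1 : K.Bd Y j (m.sum fun k x => D.e k • K.map D.ι j x) := by
    rw [Finsupp.sum]
    exact TCx.Bd.sum _ fun k _ => ((hm' k (hc k)).map D.ι).smul _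
  have h2 : K.Bd Y j (K.map D.σ j (K.map D.ι j z)) := by
    have := hbd.add h1
    simpa using this
  have h3 : K.Bd Y j (K.map D.ι j z) := by
    have := h2.map σ'
    rwa [← K.map_comp, hσ, K.map_id] at this
  have h4 := (hK.free D.ι D.e D.E D.hE j).1 (Finsupp.single 0 z) (fun k => by
    classical
    rw [Finsupp.single_apply]
    split_ifs
    · exact hz
    · exact map_zero _) (by
    rw [Finsupp.sum_single_index (by simp), D.e_zero, one_smul]
    exact h3) 0
  simpa using h4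

/-- If `δ` is constant along the group, then the transition map along `σ` is constant on
cohomology. -/
theorem const (hK : Cartesian K) (hc : D.c = 0) (j : ℤ) (z : K.obj j X) (hz : K.Cyc X j z) :
    ∃ z' : K.obj j X, K.Cyc X j z' ∧ K.Bd Y j (K.map D.σ j (K.map D.ι j z) - K.map D.ι j z') := by
  classical
  obtain ⟨m, hm, hbd, hm'⟩ := D.main hK j z hz
  refine ⟨m 0, hm 0, ?_⟩
  have h1 : K.Bd Y j ((m.sum fun k x => D.e k • K.map D.ι j x) - K.map D.ι j (m 0)) := by
    have h2 : (m.sum fun k x => D.e k • K.map D.ι j x) =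
        ∑ k ∈ insert 0 m.support, D.e k • K.map D.ι j (m k) :=
      Finsupp.sum_of_support_subset _ (Finset.subset_insert _ _) _ (fun k _ => by simp)
    rw [h2, ← Finset.add_sum_erase _ _ (Finset.mem_insert_self 0 m.support), D.e_zero, one_smul,
      add_sub_cancel_left]
    refine TCx.Bd.sum _ fun k hk => ((hm' k ?_).map D.ι).smul _
    rw [hc, mul_zero, add_zero]
    exact_mod_cast (Finset.ne_of_mem_erase hk)
  have := hbd.add h1
  simpa using this

end GmData

end Vale.Agent.P286
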