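import Vale.Agent.P286.H527.JFun

/-!
# The two natural transformations
-/

namespace Vale.Agent.P286

open CategoryTheory LaurentPolynomial

noncomputable section

variable {n d : ℕ}

theorem eq_of_triv {B : Type} [CommRing B]
    {a b a' b' : Matrix.SpecialLinearGroup (Fin n) (Polynomial B)}
    {G : Matrix.GeneralLinearGroup (Fin n) B[T;T⁻¹]} (e : 1 * negGL n B b = posGL n B a * G)
    (e' : 1 * negGL n B b' = posGL n B a' * G) (h0 : ev0 n B a = ev0 n B a') :
    a = a' ∧ b = b' := by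
  have h : posGL n B (a * a'⁻¹) = negGL n B (b * b'⁻¹) := by
    rw [one_mul] at e e'
    rw [map_mul, map_mul, map_inv, map_inv, e, e']
    group
  obtain ⟨h1, h2⟩ := eq_const_of_pos_eq_neg h
  have h3 : Matrix.SpecialLinearGroup.map Polynomial.constantCoeff (a * a'⁻¹) = 1 := by
    change ev0 n B (a * a'⁻¹) = 1
    rw [map_mul, map_inv, h0, mul_inv_cancel]
  rw [h3, map_one] at h1
  rw [h1] at h2
  exact ⟨mul_inv_eq_one.1 h1, mul_inv_eq_one.1 h2⟩

/-- Two morphisms to a trivial bundle are equal if they agree at `z = 0`. -/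
theorem hom_triv_ext (hd : 0 < d) {X : BunObj n d} {Z : BGObj n} {φ ψ : X ⟶ triv hd Z}
    (hf : BunHom.f φ = BunHom.f ψ)
    (h0 : ev0 n Z.A.R (BunHom.a φ) = ev0 n Z.A.R (BunHom.a ψ)) : φ = ψ := by
  have e1 := BunHom.eq φ
  have e2 := BunHom.eq ψ
  rw [← hf] at e2
  obtain ⟨h1, h2⟩ := eq_of_triv e1 e2 h0
  exact BunHom.ext hf h1 h2

theorem isUnit_toep {A B : Type} [CommRing A] [CommRing B] (f : A →+* B)
    (g : Matrix.GeneralLinearGroup (Fin n) A[T;T⁻¹]) (S : (Module.End A (Ix n →₀ A))ˣ)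
    (h : IsFraming g S) (hu : IsUnit (f (theta g S))) :
    IsUnit (toep (Matrix.GeneralLinearGroup.map (lmap f) g)) := by
  have h1 := theta_finRank h
  have h2 := FinRank.bc_sub_one f h1
  have h3 := fdet_bc f h1
  have h4 : IsUnit (bc f (toep g * ((S⁻¹ : (Module.End A (Ix n →₀ A))ˣ) :
      Module.End A (Ix n →₀ A)))) := by
    apply isUnit_of_isUnit_fdet h2
    rw [h3]
    exact hu
  rw [bc_mul, bc_toep] at h4
  have h5 : bc f ((S⁻¹ : (Module.End A (Ix n →₀ A))ˣ) : Module.End A (Ix n →₀ A)) =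
      ((bcU n f S⁻¹ : (Module.End B (Ix n →₀ B))ˣ) : Module.End B (Ix n →₀ B)) := rfl
  rw [h5] at h4
  exact (Units.isUnit_mul_units _ _).1 h4

theorem det_bound {k : ℕ} (hn : 0 < n) (hdn : d ∣ n) (hk : k < d) :
    ((n / d : ℕ) : ℤ) * (k : ℤ) < n := by
  have h1 : 0 < n / d := Nat.div_pos (Nat.le_of_dvd hn hdn) (Nat.pos_of_dvd_of_pos hdn hn)
  have h2 : n / d * d = n := Nat.div_mul_cancel hdn
  have h3 : n / d * k < n / d * d := (Nat.mul_lt_mul_left h1).2 hk
  rw [h2] at h3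
  exact_mod_cast h3

theorem exists_split (hn : 0 < n) (hdn : d ∣ n) (X : BunObj n d) :
    ∃ a b : Matrix.SpecialLinearGroup (Fin n) (Polynomial (Lo X.th)),
      1 * negGL n (Lo X.th) b = posGL n (Lo X.th) a *
        Matrix.GeneralLinearGroup.map (lmap (algebraMap X.A.R (Lo X.th))) X.g ∧
      ev0 n (Lo X.th) a = 1 := by
  obtain ⟨k, hk, hg⟩ := X.det_g
  obtain ⟨a, b, hab, ha⟩ := exists_fact
    (Matrix.GeneralLinearGroup.map (lmap (algebraMap X.A.R (Lo X.th))) X.g)
    (k := ((n / d : ℕ) : ℤ) * (k : ℤ)) (by positivity) (det_bound hn hdn hk)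
    (det_GLmap _ _ hg)
    (isUnit_toep _ X.g X.S X.framing (IsLocalization.Away.algebraMap_isUnit X.th))
  refine ⟨a⁻¹, b⁻¹, ?_, ?_⟩
  · rw [one_mul, map_inv, map_inv, ← hab]
    group
  · have : ev0 n (Lo X.th) a = 1 := ha
    rw [map_inv, this, inv_one]

/-- the trivialization of the bundle over the locus `θ ≠ 0` -/
def phi (hn : 0 < n) (hdn : d ∣ n) (X : BunObj n d) :
    X ⟶ triv (Nat.pos_of_dvd_of_pos hdn hn) X.lo :=
  ({ f := IsScalarTower.toAlgHom ℂ X.A.R (Lo X.th)
     a := (exists_split hn hdn X).choose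
     b := (exists_split hn hdn X).choose_spec.choose
     glue := (exists_split hn hdn X).choose_spec.choose_spec.1 } :
      BunHom X (triv (Nat.pos_of_dvd_of_pos hdn hn) X.lo))

theorem ev0_phi (hn : 0 < n) (hdn : d ∣ n) (X : BunObj n d) :
    ev0 n (Lo X.th) (BunHom.a (phi hn hdn X)) = 1 :=
  (exists_split hn hdn X).choose_spec.choose_spec.2

theorem phi_f (hn : 0 < n) (hdn : d ∣ n) (X : BunObj n d) :
    BunHom.f (phi hn hdn X) = IsScalarTower.toAlgHom ℂ X.A.R (Lo X.th) := rfl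

theorem phi_dl (hn : 0 < n) (hdn : d ∣ n) (X : BunObj n d) :
    (BunHom.dl (phi hn hdn X) : Lo X.th) * algebraMap X.A.R (Lo X.th) X.th = 1 := by
  have h := BunObj.th_map (phi hn hdn X)
  rw [triv_th] at h
  exact h.symm

theorem phi_dl_inv (hn : 0 < n) (hdn : d ∣ n) (X : BunObj n d) :
    (((BunHom.dl (phi hn hdn X))⁻¹ : (Lo X.th)ˣ) : Lo X.th) = algebraMap X.A.R (Lo X.th) X.th := by
  have h := phi_dl hn hdn X
  rw [Units.inv_eq_of_mul_eq_one_right h]

theorem phi_dl_val (hn : 0 < n) (hdn : d ∣ n) (X : BunObj n d) :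
    (BunHom.dl (phi hn hdn X) : Lo X.th) = IsLocalization.Away.invSelf X.th := by
  have h := phi_dl hn hdn X
  have h2 := mul_invSelf X
  linear_combination (IsLocalization.Away.invSelf X.th) * h -
    (BunHom.dl (phi hn hdn X) : Lo X.th) * h2

theorem phi_nat (hn : 0 < n) (hdn : d ∣ n) {X Y : BunObj n d} (φ : X ⟶ Y) :
    φ ≫ phi hn hdn Y = phi hn hdn X ≫ jmap (Nat.pos_of_dvd_of_pos hdn hn) (Lmap φ) := by
  apply hom_triv_ext
  · apply AlgHom.ext
    intro a
    exact (locMap_algebraMap (BunHom.f φ) (BunObj.isUnit_map φ) a).symm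
  · change ev0 n (Lo Y.th) (BunHom.a (phi hn hdn Y) *
      slm n (algebraMap Y.A.R (Lo Y.th)) (BunHom.a φ)) =
      ev0 n (Lo Y.th) (constSL n (Lo Y.th)
        (Matrix.SpecialLinearGroup.map (algebraMap Y.A.R (Lo Y.th)) (ev0 n Y.A.R (BunHom.a φ))) *
        slm n (locMap (BunHom.f φ) (BunObj.isUnit_map φ) : Lo X.th →+* Lo Y.th)
          (BunHom.a (phi hn hdn X)))
    rw [map_mul, map_mul, ev0_phi, ev0_constSL, ev0_slm, ev0_slm, ev0_phi, map_one, one_mul,
      mul_one]

instance modTrivLo {s : ℂ} (hd : 0 < d) (F : TDMod (Bun n d) s) (X : BunObj n d) :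
    Module (Lo X.th) (F.M (triv hd X.lo)) :=
  F.mod (triv hd X.lo)

instance modLoTriv {s : ℂ} (hd : 0 < d) (G : TDMod (BG n d) s) (X : BGObj n) :
    Module (Lo (triv hd X).th) (G.M (triv hd X).lo) :=
  G.mod (triv hd X).lo

theorem phi_act (hn : 0 < n) (hdn : d ∣ n) {s : ℂ} (F : TDMod (Bun n d) s) (X : BunObj n d)
    (v : Derivation ℂ X.A.R X.A.R) (m : F.M X) :
    F.map (phi hn hdn X) (F.act X v m) =
      F.act (triv (Nat.pos_of_dvd_of_pos hdn hn) X.lo) (locDer X.th v) (F.map (phi hn hdn X) m) -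
        tw X s v • F.map (phi hn hdn X) m := by
  have h := F.map_act (phi hn hdn X) (locDer X.th v) 1 ![1] ![v] (by
    intro a
    rw [Fin.sum_univ_one]
    change locDer X.th v (algebraMap X.A.R (Lo X.th) a) = 1 * algebraMap X.A.R (Lo X.th) (v a)
    rw [one_mul, locDer_algebraMap]) m
  rw [Fin.sum_univ_one] at h
  have h1 : (algebraMap ℂ (Lo X.th) s * (((BunHom.dl (phi hn hdn X))⁻¹ : (Lo X.th)ˣ) : Lo X.th) *
      locDer X.th v (BunHom.dl (phi hn hdn X) : Lo X.th)) = - tw X s v := by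
    rw [phi_dl_inv, phi_dl_val, der_invSelf, tw]
    have h2 := mul_invSelf X
    linear_combination (-(algebraMap ℂ (Lo X.th) s * IsLocalization.Away.invSelf X.th *
      algebraMap X.A.R (Lo X.th) (v X.th))) * h2
  have h3 : F.act (triv (Nat.pos_of_dvd_of_pos hdn hn) X.lo) (locDer X.th v)
      (F.map (phi hn hdn X) m) = (1 : Lo X.th) • F.map (phi hn hdn X) (F.act X v m) -
        (algebraMap ℂ (Lo X.th) s * (((BunHom.dl (phi hn hdn X))⁻¹ : (Lo X.th)ˣ) : Lo X.th) *
      locDer X.th v (BunHom.dl (phi hn hdn X) : Lo X.th)) • F.map (phi hn hdn X) m := h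
  rw [h1, one_smul, neg_smul, sub_neg_eq_add] at h3
  rw [h3, add_sub_cancel_right]

/-- The unit `𝟭 ⟶ J ⋙ B`. -/
def eps1 (hn : 0 < n) (hdn : d ∣ n) (s : ℂ) :
    𝟭 (TDMod (Bun n d) s) ⟶ Jfun n (Nat.pos_of_dvd_of_pos hdn hn) s ⋙ Bfun n d s where
  app F :=
    { app := fun X =>
        { toFun := F.map (phi hn hdn X)
          map_add' := map_add (F.map (phi hn hdn X))
          map_smul' := fun (a : X.A.R) (m : F.M X) => F.map_smul (phi hn hdn X) a m }
      act := fun X v (m : F.M X) => phi_act hn hdn F X v m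
      nat := fun {X Y} φ (m : F.M X) => by
        change F.map (phi hn hdn Y) (F.map φ m) =
          F.map (jmap (Nat.pos_of_dvd_of_pos hdn hn) (Lmap φ)) (F.map (phi hn hdn X) m)
        rw [← F.map_comp, ← F.map_comp, phi_nat] }
  naturality F F' f := by
    apply TDMod.hom_ext
    intro X m
    exact (TDMod.Hom.nat f (phi hn hdn X) m).symm

/-- `X ⟶ (triv X).lo` -/
def psi (hd : 0 < d) (X : BGObj n) : X ⟶ (triv hd X).lo :=
  (⟨IsScalarTower.toAlgHom ℂ X.A.R (Lo (triv hd X).th), 1⟩ : BGHom X (triv hd X).lo)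

theorem psi_nat (hd : 0 < d) {X Y : BGObj n} (φ : X ⟶ Y) :
    φ ≫ psi hd Y = psi hd X ≫ Lmap (jmap hd φ) := by
  apply BGHom.ext
  · apply AlgHom.ext
    intro a
    exact (locMap_algebraMap (BunHom.f (jmap hd φ)) (BunObj.isUnit_map (jmap hd φ)) a).symm
  · change 1 * Matrix.SpecialLinearGroup.map (algebraMap Y.A.R (Lo (triv hd Y).th)) (BGHom.h φ) =
      Matrix.SpecialLinearGroup.map (algebraMap Y.A.R (Lo (triv hd Y).th))
        (ev0 n Y.A.R (constSL n Y.A.R (BGHom.h φ))) * Matrix.SpecialLinearGroup.map _ 1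
    rw [ev0_constSL, map_one, one_mul, mul_one]

theorem triv_unit (hd : 0 < d) (X : BGObj n) : IsUnit (triv hd X).th := by
  rw [triv_th]
  exact isUnit_one

/-- the inverse of `psi` -/
def psi' (hd : 0 < d) (X : BGObj n) : (triv hd X).lo ⟶ X :=
  (⟨IsLocalization.liftAlgHom (M := Submonoid.powers (triv hd X).th) (f := AlgHom.id ℂ X.A.R) (by
      rintro ⟨_, k, rfl⟩
      exact (triv_unit hd X).pow k), 1⟩ : BGHom (triv hd X).lo X)

theorem psi_psi' (hd : 0 < d) (X : BGObj n) : psi hd X ≫ psi' hd X = 𝟙 X := by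
  apply BGHom.ext
  · apply AlgHom.ext
    intro a
    change IsLocalization.liftAlgHom (M := Submonoid.powers (triv hd X).th) (f := AlgHom.id ℂ X.A.R)
      _ (algebraMap X.A.R (Lo (triv hd X).th) a) = a
    simp
  · change 1 * Matrix.SpecialLinearGroup.map _ 1 = 1
    rw [map_one, mul_one]

theorem psi'_psi (hd : 0 < d) (X : BGObj n) : psi' hd X ≫ psi hd X = 𝟙 _ := by
  apply BGHom.ext
  · apply lo_hom_ext
    intro a
    change algebraMap X.A.R (Lo (triv hd X).th) (IsLocalization.liftAlgHom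
      (M := Submonoid.powers (triv hd X).th) (f := AlgHom.id ℂ X.A.R)
      _ (algebraMap X.A.R (Lo (triv hd X).th) a)) = algebraMap X.A.R (Lo (triv hd X).th) a
    simp
  · change 1 * Matrix.SpecialLinearGroup.map _ 1 = 1
    rw [map_one, mul_one]

theorem tw_triv (hd : 0 < d) (X : BGObj n) (s : ℂ) (v : Derivation ℂ X.A.R X.A.R) :
    tw (triv hd X) s v = 0 := by
  have h : v (triv hd X).th = 0 := by
    rw [triv_th]
    exact Derivation.map_one_eq_zero v
  rw [tw, h, map_zero, mul_zero, mul_zero]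

theorem psi_act (hd : 0 < d) (s : ℂ) (G : TDMod (BG n d) 0) (X : BGObj n)
    (v : Derivation ℂ X.A.R X.A.R) (m : G.M X) :
    G.map (psi hd X) (G.act X v m) =
      G.act (triv hd X).lo (locDer (triv hd X).th v) (G.map (psi hd X) m) -
        tw (triv hd X) s v • G.map (psi hd X) m := by
  have h := G.map_act (psi hd X) (locDer (triv hd X).th v) 1 ![1] ![v] (by
    intro a
    rw [Fin.sum_univ_one]
    change locDer (triv hd X).th v (algebraMap X.A.R (Lo (triv hd X).th) a) =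
      1 * algebraMap X.A.R (Lo (triv hd X).th) (v a)
    rw [one_mul, locDer_algebraMap]) m
  rw [Fin.sum_univ_one, map_zero, zero_mul, zero_mul, zero_smul, sub_zero] at h
  have h3 : G.act (triv hd X).lo (locDer (triv hd X).th v)
      (G.map (psi hd X) m) = (1 : Lo (triv hd X).th) • G.map (psi hd X) (G.act X v m) := h
  rw [one_smul] at h3
  rw [h3, tw_triv, zero_smul, sub_zero]

/-- The unit `𝟭 ⟶ B ⋙ J`. -/
def eps2 (n : ℕ) {d : ℕ} (hd : 0 < d) (s : ℂ) :
    𝟭 (TDMod (BG n d) 0) ⟶ Bfun n d s ⋙ Jfun n hd s where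
  app G :=
    { app := fun X =>
        { toFun := G.map (psi hd X)
          map_add' := map_add (G.map (psi hd X))
          map_smul' := fun (a : X.A.R) (m : G.M X) => G.map_smul (psi hd X) a m }
      act := fun X v (m : G.M X) => psi_act hd s G X v m
      nat := fun {X Y} φ (m : G.M X) => by
        change G.map (psi hd Y) (G.map φ m) =
          G.map (Lmap (jmap hd φ)) (G.map (psi hd X) m)
        rw [← G.map_comp, ← G.map_comp, psi_nat] }
  naturality G G' f := by
    apply TDMod.hom_ext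
    intro X m
    exact (TDMod.Hom.nat f (psi hd X) m).symm

theorem eps2_qis (n : ℕ) {d : ℕ} (hd : 0 < d) (s : ℂ) (K : TCx (BG n d) 0) :
    qis (BG n d) 0 ((unitCx (Bfun n d s) (Jfun n hd s) (eps2 n hd s)).app K) := by
  have e1 : ∀ (X : BGObj n) (i : ℤ) (x : K.obj i X),
      K.map (psi' hd X) i (K.map (psi hd X) i x) = x := by
    intro X i x
    rw [← K.map_comp, psi_psi', K.map_id]
  have e2 : ∀ (X : BGObj n) (i : ℤ) (x : K.obj i (triv hd X).lo),
      K.map (psi hd X) i (K.map (psi' hd X) i x) = x := by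
    intro X i x
    rw [← K.map_comp, psi'_psi, K.map_id]
  intro X i j k _ _
  constructor
  · rintro x hx ⟨y, hy⟩
    refine ⟨K.map (psi' hd X) i y, ?_⟩
    have hy' : K.d (triv hd X).lo i j y = K.map (psi hd X) j x := hy
    exact (K.d_map (psi' hd X) i j y).trans ((congrArg (K.map (psi' hd X) j) hy').trans (e1 X j x))
  · intro y hy
    have hy' : K.d (triv hd X).lo j k y = 0 := hy
    refine ⟨K.map (psi' hd X) j y, ?_, 0, ?_⟩
    · exact (K.d_map (psi' hd X) j k y).trans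
        ((congrArg (K.map (psi' hd X) k) hy').trans (map_zero _))
    · rw [map_zero, eq_comm, sub_eq_zero]
      exact (e2 X j y).symm

end

end Vale.Agent.P286
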