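import Vale.Agent.P286.H527.BrIso
import Vale.Agent.P286.H211.QE

/-!
# Cartesian complexes and quasi-isomorphisms for the two definitions
-/

namespace Vale.Agent.P286

open CategoryTheory

noncomputable section

namespace Br

theorem el_ind {A B : Type} [CommRing A] [CommRing B] (f : A →+* B) {P : Type} [AddCommGroup P]
    [Module A P] {motive : ExtS f P → Prop} (h0 : motive 0) (ht : ∀ b x, motive (ExtS.el f b x))
    (ha : ∀ x y, motive x → motive y → motive (x + y)) (w : ExtS f P) : motive w := by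
  let : Module A B := Module.compHom B f
  exact TensorProduct.induction_on w h0 ht ha

theorem lift_eq {A B : Type} [CommRing A] [CommRing B] (f : A →+* B) {P N : Type} [AddCommGroup P]
    [Module A P] [AddCommGroup N] [Module B N] (u : P →+ N)
    (hu : ∀ (a : A) (x : P), u (a • x) = f a • u x) (q : ExtS f P → N)
    (hq : ∀ x y, q (x + y) = q x + q y) (hq' : ∀ b x, q (ExtS.el f b x) = b • u x) :
    ⇑(ExtS.lift f u hu) = q := by
  have h0 : q 0 = 0 := by
    have := hq 0 0
    rw [add_zero] at this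
    exact left_eq_add.1 this
  funext w
  induction w using el_ind with
  | h0 => rw [map_zero, h0]
  | ht b x => exact (hq' b x).symm
  | ha x y hx hy => rw [map_add, hx, hy, hq]

variable {T : Site} {s : ℂ}

/-- The functor on complexes. -/
def Ec (T : Site) (s : ℂ) : St.Cx (T.toT s) ⥤ TCx T s :=
  (E T s).mapHomologicalComplex (ComplexShape.up ℤ)

/-- The functor on complexes. -/
def Fc (T : Site) (s : ℂ) : TCx T s ⥤ St.Cx (T.toT s) :=
  (F T s).mapHomologicalComplex (ComplexShape.up ℤ)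

theorem qis_E {K L : St.Cx (T.toT s)} {u : K ⟶ L} (h : St.Cx.qis (T.toT s) u) :
    qis T s ((Ec T s).map u) := h

theorem qis_F {K L : TCx T s} {u : K ⟶ L} (h : qis T s u) :
    St.Cx.qis (T.toT s) ((Fc T s).map u) := h

theorem bc_aux {A B : Type} [CommRing A] [CommRing B] (f : A →+* B) (P : MCx A) {K K' : ℤ → Type}
    [∀ i, AddCommGroup (K i)] [∀ i, Module A (K i)] [∀ i, AddCommGroup (K' i)]
    [∀ i, Module B (K' i)] (d' : ∀ i j, K' i → K' j) (t : ∀ i, K i →+ K' i)
    (p : ∀ i, P.X i →ₗ[A] K i) {q : ∀ i, St.BC f P i → K' i}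
    (h : St.IsBaseCh f P (fun _ b x => b • x) d' (fun i => t i) (fun i => p i) q)
    (hu : ∀ i (a : A) (x : P.X i), ((t i).comp (p i).toAddMonoidHom) (a • x) =
      f a • ((t i).comp (p i).toAddMonoidHom) x) (i j k : ℤ) (hi : i + 1 = j) (hj : j + 1 = k) :
    St.HIso (ExtS.map f (P.d i j)) (ExtS.map f (P.d j k)) (d' i j) (d' j k)
      (ExtS.lift f ((t j).comp (p j).toAddMonoidHom) (hu j)) := by
  rw [lift_eq f _ (hu j) (q j) (h.add j) (h.el j)]
  exact h.hiso i j k hi hj

theorem bc_aux' {A B : Type} [CommRing A] [CommRing B] (f : A →+* B) (P : MCx A) {K K' : ℤ → Type}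
    [∀ i, AddCommGroup (K i)] [∀ i, Module A (K i)] [∀ i, AddCommGroup (K' i)]
    [∀ i, Module B (K' i)] (d' : ∀ i j, K' i → K' j) (t : ∀ i, K i →+ K' i)
    (p : ∀ i, P.X i →ₗ[A] K i)
    (hu : ∀ i (a : A) (x : P.X i), ((t i).comp (p i).toAddMonoidHom) (a • x) =
      f a • ((t i).comp (p i).toAddMonoidHom) x)
    (h : ∀ i j k : ℤ, i + 1 = j → j + 1 = k →
      St.HIso (ExtS.map f (P.d i j)) (ExtS.map f (P.d j k)) (d' i j) (d' j k)
        (ExtS.lift f ((t j).comp (p j).toAddMonoidHom) (hu j))) :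
    ∃ q, St.IsBaseCh f P (fun _ b x => b • x) d' (fun i => t i) (fun i => p i) q :=
  ⟨fun i => ExtS.lift f ((t i).comp (p i).toAddMonoidHom) (hu i),
    fun i => map_add (ExtS.lift f ((t i).comp (p i).toAddMonoidHom) (hu i)), fun i b x => rfl, h⟩

/-- The linear map. -/
def mkLin {A : Type} [CommRing A] (P : MCx A) {K : ℤ → Type}
    [∀ i, AddCommGroup (K i)] [∀ i, Module A (K i)] (d : ∀ i j, K i → K j)
    (p : ∀ i, P.X i → K i) (h : St.IsFlatRes P (fun _ a x => a • x) d p) (i : ℤ) :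
    P.X i →ₗ[A] K i where
  toFun := p i
  map_add' := h.add i
  map_smul' := h.hom i

/-- The condition `St.Cx.Cart` for a complex of twisted `D`-modules. -/
def Cart' (K : TCx T s) : Prop :=
  ∀ X : T.C, ∃ (P : MCx (T.R X)) (p : ∀ i, P.X i → K.obj i X),
    St.IsFlatRes P (fun _ a x => a • x) (fun i j => K.d X i j) p ∧
    ∀ (Y : T.C) (φ : X ⟶ Y), ∃ q, St.IsBaseCh (T.res φ).toRingHom P (K := fun i => K.obj i X)
      (K' := fun i => K.obj i Y) (fun _ b x => b • x) (fun i j => K.d Y i j)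
      (fun i => K.map φ i) p q

theorem cartesian_iff (K : TCx T s) : Cartesian K ↔ Cart' K := by
  constructor
  · intro h X
    obtain ⟨P, hP, p, h1, h2, h3⟩ := h X
    refine ⟨P, fun i => p i, ⟨hP, fun i => (p i).map_add, fun i => (p i).map_smul, h1, h2⟩, ?_⟩
    intro Y φ
    exact bc_aux' (T.res φ).toRingHom P (K := fun i => K.obj i X) (K' := fun i => K.obj i Y)
      (fun i j => K.d Y i j) (fun i => K.map φ i) p
      (fun i a x => by simp [TCx.map, TDMod.map_smul]) (h3 Y φ)
  · intro h X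
    obtain ⟨P, p, hp, hq⟩ := h X
    refine ⟨P, hp.flat, mkLin P (K := fun i => K.obj i X) (fun i j => K.d X i j) p hp, hp.comm,
      hp.hiso, ?_⟩
    intro Y φ i j k hi hj
    obtain ⟨q, hq⟩ := hq Y φ
    exact bc_aux (T.res φ).toRingHom P (K := fun i => K.obj i X)
      (K' := fun i => K.obj i Y) (fun i j => K.d Y i j)
      (fun i => K.map φ i) (mkLin P
        (K := fun i => K.obj i X) (fun i j => K.d X i j) p hp) hq
      (fun i a x => by simp [TCx.map, TDMod.map_smul]) i j k hi hj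

theorem cart_E {K : St.Cx (T.toT s)} (h : St.Cx.Cart K) : Cartesian ((Ec T s).obj K) :=
  (cartesian_iff _).2 h

theorem cart_F {K : TCx T s} (h : Cartesian K) : St.Cx.Cart ((Fc T s).obj K) :=
  (cartesian_iff _).1 h

end Br

end

end Vale.Agent.P286
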