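import Vale.Agent.P286.St.ToT

/-!
# From representations of the quiver to twisted `D`-modules
-/

namespace Vale.Agent.P286

open CategoryTheory

noncomputable section

namespace St

variable {T : TSite}

theorem mh_add {V W : ModuleCat.{0} ℂ} (u : V ⟶ W) (x y : V) : mh u (x + y) = mh u x + mh u y :=
  map_add u.hom x y

theorem mh_smul {V W : ModuleCat.{0} ℂ} (u : V ⟶ W) (c : ℂ) (x : V) : mh u (c • x) = c • mh u x :=
  map_smul u.hom c x

theorem Pre.ap_add (M : Pre T) {X Y : T.C} (e : Arr T X Y) (x y : M.S X) :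
    M.ap e (x + y) = M.ap e x + M.ap e y := mh_add _ x y

theorem Pre.ap_smul (M : Pre T) {X Y : T.C} (e : Arr T X Y) (c : ℂ) (x : M.S X) :
    M.ap e (c • x) = c • M.ap e x := mh_smul _ c x

theorem Pre.hm_add {M N : Pre T} (u : M ⟶ N) (X : T.C) (x y : M.S X) :
    Pre.hm u X (x + y) = Pre.hm u X x + Pre.hm u X y := mh_add _ x y

theorem Pre.hm_ap {M N : Pre T} (u : M ⟶ N) {X Y : T.C} (e : Arr T X Y) (x : M.S X) :
    Pre.hm u Y (M.ap e x) = N.ap e (Pre.hm u X x) := by
  have h := NatTrans.naturality (F := M.F) (G := N.F) u (pa e)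
  exact congrArg (fun f : (M.F.obj X ⟶ N.F.obj Y) => f.hom x) h

theorem TD.hm_id (M : TD T) (X : T.C) (x : M.pre.S X) : TD.hm (𝟙 M) X x = x := rfl

theorem TD.hm_comp {M N P : TD T} (u : M ⟶ N) (v : N ⟶ P) (X : T.C) (x : M.pre.S X) :
    TD.hm (u ≫ v) X x = TD.hm v X (TD.hm u X x) := rfl

theorem TD.hm_add {M N : TD T} (u : M ⟶ N) (X : T.C) (x y : M.pre.S X) :
    TD.hm u X (x + y) = TD.hm u X x + TD.hm u X y := Pre.hm_add _ _ _ _

theorem TD.add_hm {M N : TD T} (u v : M ⟶ N) (X : T.C) (x : M.pre.S X) :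
    TD.hm (u + v) X x = TD.hm u X x + TD.hm v X x := rfl

theorem TD.smul_hm {M N : TD T} (c : ℂ) (u : M ⟶ N) (X : T.C) (x : M.pre.S X) :
    TD.hm (c • u) X x = c • TD.hm u X x := rfl

theorem TD.hm_ap {M N : TD T} (u : M ⟶ N) {X Y : T.C} (e : Arr T X Y) (x : M.pre.S X) :
    TD.hm u Y (M.pre.ap e x) = N.pre.ap e (TD.hm u X x) :=
  Pre.hm_ap (M := M.pre) (N := N.pre) (InducedCategory.Hom.hom u) e x

end St

namespace Br

variable {T : Site} {s : ℂ}

/-- The relations. -/
theorem isTD (M : St.TD (T.toT s)) : St.IsTD (T.toT s) M.pre := ObjectProperty.FullSubcategory.property M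

/-- The carrier. -/
abbrev Ca (M : St.TD (T.toT s)) (X : T.C) : Type := M.pre.S (T := T.toT s) X

instance mod (M : St.TD (T.toT s)) (X : T.C) : Module (T.R X) (Ca M X) where
  smul a m := M.pre.fn (T := T.toT s) X a m
  one_smul m := by
    have h := ((isTD M).dmod X).const 1 m
    rw [map_one, one_smul] at h
    exact h
  mul_smul a b m := ((isTD M).dmod X).fn_mul a b m
  smul_zero a := by
    have h := M.pre.ap_smul (T := T.toT s) (X := X) (.fn a) 0 0
    rw [zero_smul, zero_smul] at h
    exact h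
  smul_add a x y := M.pre.ap_add _ x y
  add_smul a b m := ((isTD M).dmod X).fn_add a b m
  zero_smul m := by
    have h := ((isTD M).dmod X).const 0 m
    rw [map_zero, zero_smul] at h
    exact h

theorem smul_def (M : St.TD (T.toT s)) (X : T.C) (a : T.R X) (m : Ca M X) :
    a • m = M.pre.fn (T := T.toT s) X a m := rfl

theorem csmul (M : St.TD (T.toT s)) (X : T.C) (c : ℂ) (m : Ca M X) :
    algebraMap ℂ (T.R X) c • m = c • m := ((isTD M).dmod X).const c m

/-- The functor on objects. -/
def Eobj (M : St.TD (T.toT s)) : TDMod T s where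
  M X := Ca M X
  grp X := inferInstance
  mod X := mod M X
  act X v m := M.pre.vf (T := T.toT s) X v m
  act_add X v x y := M.pre.ap_add _ x y
  add_act X v w m := ((isTD M).dmod X).vf_add v w m
  smul_act X a v m := ((isTD M).dmod X).vf_smul a v m
  leibniz X v a m := ((isTD M).dmod X).vf_fn v a m
  lie_act X v w m := ((isTD M).dmod X).vf_lie v w m
  map {X Y} φ := AddMonoidHom.mk' (M.pre.tr (T := T.toT s) φ) (M.pre.ap_add _)
  map_smul {X Y} φ a m := ((isTD M).trans X Y φ).fn a m
  map_id X m := (isTD M).id X m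
  map_comp {X Y Z} φ ψ m := (isTD M).comp X Y Z φ ψ m
  map_act {X Y} φ w k c v h m := by
    have h1 : (T.dl φ : T.R Y) • M.pre.vf (T := T.toT s) Y w (M.pre.tr (T := T.toT s) φ m) =
        (T.dl φ : T.R Y) • (∑ i, c i • (M.pre.tr (T := T.toT s) φ
          (M.pre.vf (T := T.toT s) X (v i) m) : Ca M Y)) -
        s • (w (T.dl φ : T.R Y) • (M.pre.tr (T := T.toT s) φ m : Ca M Y)) :=
      ((isTD M).trans X Y φ).vf w k c v h m
    have h2 := congrArg (fun x : Ca M Y => ((T.dl φ)⁻¹ : (T.R Y)ˣ).val • x) h1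
    simp only [smul_sub, smul_smul, Units.inv_mul, one_smul, ← csmul] at h2
    refine h2.trans ?_
    congr 2
    · rw [mul_comm ((T.dl φ)⁻¹ : (T.R Y)ˣ).val, mul_right_comm]
  map_cen X φ h m := (isTD M).cen X φ h m

/-- The functor on morphisms. -/
def Emap {M N : St.TD (T.toT s)} (u : M ⟶ N) : Eobj M ⟶ Eobj N :=
  ({ app := fun X =>
       { toFun := St.TD.hm (T := T.toT s) u X
         map_add' := St.TD.hm_add (T := T.toT s) u X
         map_smul' := fun a m => St.TD.hm_ap (T := T.toT s) u (.fn a) m }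
     act := fun X v m => St.TD.hm_ap (T := T.toT s) u (.vf v) m
     nat := fun {X Y} φ m => St.TD.hm_ap (T := T.toT s) u (.tr φ) m } : TDMod.Hom (Eobj M) (Eobj N))

/-- The functor from representations of the quiver to twisted `D`-modules. -/
def E (T : Site) (s : ℂ) : St.TD (T.toT s) ⥤ TDMod T s where
  obj := Eobj
  map := Emap
  map_id M := by
    apply TDMod.hom_ext
    intro X m
    exact St.TD.hm_id M X m
  map_comp u v := by
    apply TDMod.hom_ext
    intro X m
    exact St.TD.hm_comp u v X m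

instance (T : Site) (s : ℂ) : (E T s).Additive where
  map_add {M N u v} := by
    apply TDMod.hom_ext
    intro X m
    exact St.TD.add_hm u v X m

instance (T : Site) (s : ℂ) : (E T s).Linear ℂ where
  map_smul {M N} u c := by
    apply TDMod.hom_ext
    intro X m
    exact (St.TD.smul_hm c u X m).trans (csmul N X c (St.TD.hm (T := T.toT s) u X m)).symm

end Br

end

end Vale.Agent.P286
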