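import Vale.Agent.P286.H527.BrE

/-!
# From twisted `D`-modules to representations of the quiver
-/

namespace Vale.Agent.P286

open CategoryTheory

noncomputable section

namespace Br

variable {T : Site} {s : ℂ}

/-- The structure of a complex vector space. -/
abbrev cMod (M : TDMod T s) (X : T.C) : Module ℂ (M.M X) :=
  Module.compHom (M.M X) (algebraMap ℂ (T.R X))

/-- The vector space of sections. -/
def ob (M : TDMod T s) (X : T.C) : ModuleCat.{0} ℂ :=
  letI : Module ℂ (M.M X) := cMod M X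
  ModuleCat.of ℂ (M.M X)

/-- A linear map. -/
def lin (M : TDMod T s) {X Y : T.C} (f : M.M X → M.M Y) (h : ∀ x y, f (x + y) = f x + f y)
    (h' : ∀ (c : ℂ) x, f (algebraMap ℂ (T.R X) c • x) = algebraMap ℂ (T.R Y) c • f x) :
    ob M X ⟶ ob M Y :=
  letI : Module ℂ (M.M X) := cMod M X
  letI : Module ℂ (M.M Y) := cMod M Y
  ModuleCat.ofHom { toFun := f, map_add' := h, map_smul' := h' }

/-- The transition maps. -/
def trA (M : TDMod T s) {X Y : T.C} (φ : X ⟶ Y) : ob M X ⟶ ob M Y :=
  lin M (M.map φ) (map_add (M.map φ))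
      (fun c x => (M.map_smul φ _ x).trans (congrArg (· • M.map φ x) ((T.res φ).commutes c)))

/-- The action of a function. -/
def fnA (M : TDMod T s) {X : T.C} (a : T.R X) : ob M X ⟶ ob M X :=
  lin M (fun m => a • m) (smul_add _) (fun _ _ => smul_comm _ _ _)

/-- The action of a vector field. -/
def vfA (M : TDMod T s) {X : T.C} (v : T.Der X) : ob M X ⟶ ob M X :=
  lin M (M.act X v) (M.act_add X v) (fun c x => M.act_csmul X v c x)

/-- The map defined by an arrow. -/
def arr (M : TDMod T s) : ∀ {X Y : (T.toT s).C}, St.Arr (T.toT s) X Y → (ob M X ⟶ ob M Y)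
  | _, _, .tr φ => trA M φ
  | _, _, .fn a => fnA M a
  | _, _, .vf v => vfA M v

/-- The representation. -/
def Fpre (M : TDMod T s) : St.Pre (T.toT s) :=
  Paths.lift (V := St.Vx (T.toT s)) { obj := fun X => ob M X, map := fun e => arr M e }

theorem Fpre_ap (M : TDMod T s) {X Y : T.C} (e : St.Arr (T.toT s) X Y) (m : M.M X) :
    (Fpre M).ap e m = (arr M e).hom m := rfl

theorem Fpre_tr (M : TDMod T s) {X Y : T.C} (φ : X ⟶ Y) (m : M.M X) :
    (Fpre M).tr (T := T.toT s) φ m = M.map φ m := rfl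

theorem Fpre_fn (M : TDMod T s) {X : T.C} (a : T.R X) (m : M.M X) :
    (Fpre M).fn (T := T.toT s) X a m = a • m := rfl

theorem Fpre_vf (M : TDMod T s) {X : T.C} (v : T.Der X) (m : M.M X) :
    (Fpre M).vf (T := T.toT s) X v m = M.act X v m := rfl

theorem Fpre_dmod (M : TDMod T s) (X : T.C) :
    St.IsDMod ((Fpre M).fn (T := T.toT s) X) ((Fpre M).vf (T := T.toT s) X) where
  const c m := rfl
  fn_add a b m := add_smul (show T.R X from a) (show T.R X from b) (show M.M X from m)
  fn_mul a b m := mul_smul (show T.R X from a) (show T.R X from b) (show M.M X from m)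
  vf_add v w m := M.add_act X v w m
  vf_smul a v m := M.smul_act X a v m
  vf_fn v a m := M.leibniz X v a m
  vf_lie v w m := M.lie_act X v w m

theorem trans_aux {R N : Type} [CommRing R] [AddCommGroup N] [Module R N] (δ : Rˣ) (s w : R)
    (x y z : N) (h : x = y - (s * ((δ⁻¹ : Rˣ) : R) * w) • z) :
    (δ : R) • x = (δ : R) • y - s • (w • z) := by
  rw [h, smul_sub, smul_smul, smul_smul]
  congr 2
  have h1 : (δ : R) * ((δ⁻¹ : Rˣ) : R) = 1 := Units.mul_inv δ
  linear_combination s * w * h1

theorem Fpre_trans (M : TDMod T s) {X Y : T.C} (φ : X ⟶ Y) :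
    St.IsTrans (T.toT s).s ((T.toT s).f φ) ((T.toT s).dl φ) ((Fpre M).fn (T := T.toT s) X)
      ((Fpre M).vf (T := T.toT s) X) ((Fpre M).fn (T := T.toT s) Y)
      ((Fpre M).vf (T := T.toT s) Y) ((Fpre M).tr (T := T.toT s) φ) where
  fn a m := M.map_smul φ a m
  vf w k c v h m := trans_aux (T.dl φ) (algebraMap ℂ (T.R Y) s) (w (T.dl φ : T.R Y))
    (M.act Y w (M.map φ m)) _ (M.map φ m) (M.map_act φ w k c v h m)

theorem Fpre_isTD (M : TDMod T s) : St.IsTD (T.toT s) (Fpre M) where
  dmod X := Fpre_dmod M X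
  trans X Y φ := Fpre_trans M φ
  id X m := M.map_id X m
  comp X Y Z φ ψ m := M.map_comp φ ψ m
  cen X φ h m := M.map_cen X φ h m

/-- The functor on objects. -/
def Fobj (M : TDMod T s) : St.TD (T.toT s) := ⟨Fpre M, Fpre_isTD M⟩

/-- The linear map of vector spaces defined by a morphism. -/
def homA {M N : TDMod T s} (u : M ⟶ N) (X : T.C) : ob M X ⟶ ob N X :=
  letI : Module ℂ (M.M X) := cMod M X
  letI : Module ℂ (N.M X) := cMod N X
  ModuleCat.ofHom { toFun := TDMod.Hom.app u X, map_add' := map_add (TDMod.Hom.app u X)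
                    map_smul' := fun _ _ => map_smul (TDMod.Hom.app u X) _ _ }

theorem app_smul {M N : TDMod T s} (u : M ⟶ N) (X : T.C) (a : T.R X) (m : M.M X) :
    TDMod.Hom.app u X (a • m) = a • TDMod.Hom.app u X m := map_smul (TDMod.Hom.app u X) a m

theorem homA_nat {M N : TDMod T s} (u : M ⟶ N) {X Y : (T.toT s).C} (e : St.Arr (T.toT s) X Y) :
    arr M e ≫ homA u Y = homA u X ≫ arr N e := by
  apply ModuleCat.hom_ext
  apply LinearMap.ext
  intro m
  cases e with
  | tr φ => exact TDMod.Hom.nat u φ m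
  | fn a => exact app_smul u _ a m
  | vf v => exact TDMod.Hom.act u X v m

/-- The natural transformation defined by a morphism. -/
def homP {M N : TDMod T s} (u : M ⟶ N) : (Fpre M).F ⟶ (Fpre N).F :=
  Paths.liftNatTrans (V := St.Vx (T.toT s)) (F := (Fpre M).F) (G := (Fpre N).F) (fun X => homA u X)
    (fun e => homA_nat u e)

/-- The functor on morphisms. -/
def Fmap {M N : TDMod T s} (u : M ⟶ N) : Fobj M ⟶ Fobj N :=
  ObjectProperty.homMk (homP u)

theorem hm_Fmap {M N : TDMod T s} (u : M ⟶ N) (X : T.C) (m : M.M X) :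
    St.TD.hm (T := T.toT s) (Fmap u) X m = TDMod.Hom.app u X m := rfl

theorem TD_hom_ext {T : St.TSite} {M N : St.TD T} {u v : M ⟶ N}
    (h : ∀ (X : T.C) (m : M.pre.S X), St.TD.hm u X m = St.TD.hm v X m) : u = v := by
  apply ObjectProperty.hom_ext
  refine NatTrans.ext (F := M.pre.F) (G := N.pre.F) (funext fun X => ?_)
  apply ModuleCat.hom_ext
  apply LinearMap.ext
  intro m
  exact h X m

/-- The functor from twisted `D`-modules to representations of the quiver. -/
def F (T : Site) (s : ℂ) : TDMod T s ⥤ St.TD (T.toT s) where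
  obj := Fobj
  map := Fmap
  map_id M := TD_hom_ext fun X m => rfl
  map_comp u v := TD_hom_ext fun X m => rfl

instance (T : Site) (s : ℂ) : (F T s).Additive where
  map_add {M N u v} := TD_hom_ext fun X m => rfl

instance (T : Site) (s : ℂ) : (F T s).Linear ℂ where
  map_smul {M N} u c := TD_hom_ext fun X m => rfl

end Br

end

end Vale.Agent.P286
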