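import Vale.Agent.P286.Defs
import Vale.Agent.P286.St.ToT
import Vale.Agent.P286.St.Sites

/-!
# Comparison of the two definitions of the test categories
-/

namespace Vale.Agent.P286

open CategoryTheory

noncomputable section

theorem toT_Bun (n d : ℕ) (s : ℂ) : (Bun n d).toT s = St.Bun n d s := rfl

theorem cen_BG (n : ℕ) (X : BGObj n) : (BG n 1).cen X = {𝟙 X} := by
  ext φ
  constructor
  · rintro ⟨h1, ζ, hζ, h2⟩
    rw [pow_one] at hζ
    subst hζ
    apply BGHom.ext
    · exact h1
    · apply Subtype.ext
      refine h2.trans ?_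
      rw [map_one]
      exact map_one (Matrix.scalar (Fin n))
  · rintro rfl
    refine ⟨rfl, 1, one_pow 1, ?_⟩
    rw [map_one]
    exact (map_one (Matrix.scalar (Fin n))).symm

theorem toT_BG (n : ℕ) : (BG n 1).toT 0 = St.BSL n := by
  have h : (BG n 1).cen = fun X => {𝟙 X} := funext fun X => cen_BG n X
  unfold Site.toT St.BSL
  rw [h]
  rfl

end

end Vale.Agent.P286
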