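import Vale.Agent.P286.H527.Eps1
import Vale.Agent.P286.H211.Mu
import Vale.Agent.P286.H211.PresB

/-!
# The equivalences at irrational level on the projective line
-/

namespace Vale.Agent.P286

open CategoryTheory LaurentPolynomial

noncomputable section

/-- The restriction to the trivial bundle is a quasi-equivalence. -/
theorem isQuasiEquiv_J {n d : ℕ} (hn : 0 < n) (hdn : d ∣ n) {s : ℂ}
    (hs : ∀ m : ℤ, m ≠ 0 → ∀ k : ℤ, (k : ℂ) + s * m ≠ 0) :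
    IsQuasiEquiv (Jfun n (Nat.pos_of_dvd_of_pos hdn hn) s) :=
  quasiEquiv_of_inverse (Jfun n (Nat.pos_of_dvd_of_pos hdn hn) s) (Bfun n d s)
    (presCart_J n (Nat.pos_of_dvd_of_pos hdn hn) s) (presCart_B n d s)
    (Or.inl ⟨eps1 hn hdn s, fun K hK => eps1_qis hn hdn hs K hK⟩)
    (Or.inl ⟨eps2 n (Nat.pos_of_dvd_of_pos hdn hn) s,
      fun K _ => eps2_qis n (Nat.pos_of_dvd_of_pos hdn hn) s K⟩)

/-- Irrational twists are not resonant. -/
theorem not_resonant {n : ℕ} (hn : 0 < n) {c : ℂ} (hc : ∀ q : ℚ, c ≠ (q : ℂ)) (m : ℤ) (hm : m ≠ 0)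
    (k : ℤ) : (k : ℂ) + ((n : ℂ) - c) / (2 * n) * m ≠ 0 := by
  intro h
  have hn' : (n : ℂ) ≠ 0 := by exact_mod_cast hn.ne'
  have hm' : (m : ℂ) ≠ 0 := by exact_mod_cast hm
  apply hc ((n : ℚ) + 2 * n * k / m)
  push_cast
  field_simp at h ⊢
  linear_combination (-1 : ℂ) * h

theorem irrational_inv {c : ℂ} (hc : ∀ q : ℚ, c ≠ (q : ℂ)) (q : ℚ) : -1 / c ≠ (q : ℂ) := by
  intro h
  have h0 : c ≠ 0 := by
    intro h0
    apply hc 0
    rw [h0]
    simp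
  apply hc (-1 / q)
  push_cast
  rw [← h]
  field_simp

theorem dg_BG {n d : ℕ} (hn : 0 < n) (hdn : d ∣ n) {c : ℂ} (hc : ∀ q : ℚ, c ≠ (q : ℂ)) :
    DGEquivalent (Bun n d, ((n : ℂ) - c) / (2 * n)) (BG n 1, 0) := by
  refine Relation.EqvGen.trans _ (BG n d, 0) _ (Relation.EqvGen.rel _ _ ?_)
    (Relation.EqvGen.rel _ _ (dgStep_BG hn hdn 0))
  exact ⟨Jfun n (Nat.pos_of_dvd_of_pos hdn hn) _, inferInstance, inferInstance,
    isQuasiEquiv_J hn hdn (not_resonant hn hc)⟩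

end

end Vale.Agent.P286
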