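import Vale.Agent.P286.H527.BrLoc
import Vale.Agent.P286.H527.Comp
import Vale.Agent.P286.H527.Main
import Vale.Agent.P286.H211.Sane

/-!
# The main theorem in terms of the compact definitions
-/

namespace Vale.Agent.P286

open CategoryTheory

noncomputable section

namespace Br

theorem nonzero {T : Site} {s : ℂ} {K : TCx T s} (h : Cartesian K) (h' : ¬ TAcyclic K) :
    ∃ K' : St.Cx (T.toT s), St.Cx.Cart K' ∧ ¬ K'.Acyclic := by
  refine ⟨(Fc T s).obj K, cart_F h, fun hA => h' ?_⟩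
  intro X j z hz
  obtain ⟨y, hy⟩ := hA X (j - 1) j (j + 1) (by ring) rfl z hz
  exact ⟨y, hy⟩

/-- `D_c(Bun_G(ℙ¹)) ≃ D(BSL_n)` for irrational `c`. -/
theorem main {n d : ℕ} (hn : 0 < n) (hdn : d ∣ n) {c : ℂ} (hc : ∀ q : ℚ, c ≠ (q : ℂ)) :
    St.DGEquivalent (St.Bun n d (((n : ℂ) - c) / (2 * n))) (St.BSL n) := by
  have h := dgEquivalent (dg_BG hn hdn hc)
  change St.DGEquivalent ((Bun n d).toT (((n : ℂ) - c) / (2 * n))) ((BG n 1).toT 0) at h
  rw [toT_Bun, toT_BG] at h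
  exact h

theorem nonzero_Bun {n d : ℕ} (hn : 0 < n) (hdn : d ∣ n) (s : ℂ) :
    ∃ K : St.Cx (St.Bun n d s), St.Cx.Cart K ∧ ¬ K.Acyclic :=
  nonzero (cartesian_strBun n d s) (not_tAcyclic_strBun n (Nat.pos_of_dvd_of_pos hdn hn) s)

end Br

end

end Vale.Agent.P286
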