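import Vale.Agent.P286.H527.BrF

/-!
# The two functors are inverse to each other
-/

namespace Vale.Agent.P286

open CategoryTheory

noncomputable section

namespace Br

variable {T : Site} {s : ℂ}

/-- A morphism of twisted `D`-modules given by the identity maps. -/
def homFE (M : TDMod T s) : Eobj (Fobj M) ⟶ M :=
  ({ app := fun X =>
       { toFun := fun m => m
         map_add' := fun _ _ => rfl
         map_smul' := fun _ _ => rfl }
     act := fun X v m => rfl
     nat := fun {X Y} φ m => rfl } : TDMod.Hom (Eobj (Fobj M)) M)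

/-- A morphism of twisted `D`-modules given by the identity maps. -/
def invFE (M : TDMod T s) : M ⟶ Eobj (Fobj M) :=
  ({ app := fun X =>
       { toFun := fun m => m
         map_add' := fun _ _ => rfl
         map_smul' := fun _ _ => rfl }
     act := fun X v m => rfl
     nat := fun {X Y} φ m => rfl } : TDMod.Hom M (Eobj (Fobj M)))

/-- An isomorphism of twisted `D`-modules given by the identity maps. -/
def isoFE (M : TDMod T s) : Eobj (Fobj M) ≅ M where
  hom := homFE M
  inv := invFE M
  hom_inv_id := by
    apply TDMod.hom_ext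
    intro X m
    rfl
  inv_hom_id := by
    apply TDMod.hom_ext
    intro X m
    rfl

/-- The counit. -/
def FE (T : Site) (s : ℂ) : F T s ⋙ E T s ≅ 𝟭 _ :=
  NatIso.ofComponents (fun M => isoFE M) (fun u => by
    apply TDMod.hom_ext
    intro X m
    rfl)

/-- The identity as a linear map. -/
def idA (M : St.TD (T.toT s)) (X : T.C) : M.pre.o (T := T.toT s) X ⟶ ob (Eobj M) X :=
  letI : Module ℂ ((Eobj M).M X) := cMod (Eobj M) X
  ModuleCat.ofHom
    { toFun := fun m => m
      map_add' := fun _ _ => rfl
      map_smul' := fun c m => (csmul M X c m).symm }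

/-- The identity as a linear map. -/
def idB (M : St.TD (T.toT s)) (X : T.C) : ob (Eobj M) X ⟶ M.pre.o (T := T.toT s) X :=
  letI : Module ℂ ((Eobj M).M X) := cMod (Eobj M) X
  ModuleCat.ofHom
    { toFun := fun m => m
      map_add' := fun _ _ => rfl
      map_smul' := fun c m => csmul M X c m }

theorem arr_Eobj (M : St.TD (T.toT s)) {X Y : (T.toT s).C} (e : St.Arr (T.toT s) X Y)
    (m : Ca M X) :
    (arr (Eobj M) e).hom m = M.pre.ap (T := T.toT s) e m := by
  cases e <;> rfl

/-- The natural transformation given by the identity maps. -/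
def natA (M : St.TD (T.toT s)) : M.pre.F ⟶ (Fpre (Eobj M)).F :=
  Paths.liftNatTrans (V := St.Vx (T.toT s)) (F := M.pre.F) (G := (Fpre (Eobj M)).F)
    (fun X => idA M X) (fun e => by
      apply ModuleCat.hom_ext
      apply LinearMap.ext
      intro m
      exact (arr_Eobj M e m).symm)

/-- The natural transformation given by the identity maps. -/
def natB (M : St.TD (T.toT s)) : (Fpre (Eobj M)).F ⟶ M.pre.F :=
  Paths.liftNatTrans (V := St.Vx (T.toT s)) (F := (Fpre (Eobj M)).F) (G := M.pre.F)
    (fun X => idB M X) (fun e => by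
      apply ModuleCat.hom_ext
      apply LinearMap.ext
      intro m
      exact arr_Eobj M e m)

/-- An isomorphism given by the identity maps. -/
def isoEF (M : St.TD (T.toT s)) : Fobj (Eobj M) ≅ M where
  hom := ObjectProperty.homMk (natB M)
  inv := ObjectProperty.homMk (natA M)
  hom_inv_id := TD_hom_ext fun X m => rfl
  inv_hom_id := TD_hom_ext fun X m => rfl

/-- The unit. -/
def EF (T : Site) (s : ℂ) : E T s ⋙ F T s ≅ 𝟭 _ :=
  NatIso.ofComponents (fun M => isoEF M) (fun u => TD_hom_ext fun X m => rfl)

end Br

end

end Vale.Agent.P286
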