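import Vale.Agent.P286.H527.BrCart

/-!
# Comparison of the two definitions of DG equivalence
-/

namespace Vale.Agent.P286

open CategoryTheory

noncomputable section

namespace Br

variable {T T' : Site} {s s' : ℂ}

/-- The functor on cartesian complexes. -/
def Eca (T : Site) (s : ℂ) : St.CCx (T.toT s) ⥤ CartCx T s :=
  (cartesian T s).lift (St.CCx.incl (T.toT s) ⋙ Ec T s) (fun K => cart_E K.property)

/-- The functor on cartesian complexes. -/
def Fca (T : Site) (s : ℂ) : CartCx T s ⥤ St.CCx (T.toT s) :=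
  (St.Cx.Cart (T := T.toT s)).lift ((cartesian T s).ι ⋙ Fc T s) (fun K => cart_F K.property)

/-- The morphism of localizers. -/
abbrev Elo (T : Site) (s : ℂ) : LocalizerMorphism (St.CCx.qis (T.toT s)) (qisCart T s) where
  functor := Eca T s
  map := fun _ _ _ hu => qis_E hu

/-- The morphism of localizers. -/
abbrev Flo (T : Site) (s : ℂ) : LocalizerMorphism (qisCart T s) (St.CCx.qis (T.toT s)) where
  functor := Fca T s
  map := fun _ _ _ hu => qis_F hu

/-- The unit on complexes. -/
def unE (T : Site) (s : ℂ) : 𝟭 (St.Cx (T.toT s)) ⟶ Ec T s ⋙ Fc T s where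
  app K :=
    { f := fun i => (EF T s).inv.app (HomologicalComplex.X K i)
      comm' := fun i j _ => ((EF T s).inv.naturality (HomologicalComplex.d K i j)).symm }
  naturality K L u := by
    apply HomologicalComplex.hom_ext
    intro i
    exact (EF T s).inv.naturality (HomologicalComplex.Hom.f u i)

/-- The unit on complexes. -/
def unF (T : Site) (s : ℂ) : 𝟭 (TCx T s) ⟶ Fc T s ⋙ Ec T s where
  app K :=
    { f := fun i => (FE T s).inv.app (HomologicalComplex.X K i)
      comm' := fun i j _ => ((FE T s).inv.naturality (HomologicalComplex.d K i j)).symm }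
  naturality K L u := by
    apply HomologicalComplex.hom_ext
    intro i
    exact (FE T s).inv.naturality (HomologicalComplex.Hom.f u i)

theorem hiso_id {X₁ X₂ X₃ : Type} [AddCommGroup X₁] [AddCommGroup X₂] [AddCommGroup X₃]
    (d₁ : X₁ → X₂) (d₂ : X₂ → X₃) (h : d₁ 0 = 0) : St.HIso d₁ d₂ d₁ d₂ (fun x => x) :=
  ⟨fun _ _ h => h, fun y hy => ⟨y, hy, 0, by rw [h, sub_self]⟩⟩

theorem unE_qis (K : St.Cx (T.toT s)) : St.Cx.qis (T.toT s) ((unE T s).app K) :=
  fun X i j k _ _ => hiso_id (K.d X i j) (K.d X j k) (by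
    have h := St.TD.hm_add (M := K.tm i) (N := K.tm j) (HomologicalComplex.d K i j) X 0 0
    rw [add_zero] at h
    exact left_eq_add.1 h)

theorem unF_qis (K : TCx T s) : qis T s ((unF T s).app K) :=
  fun X i j k _ _ => hiso_id (K.d X i j) (K.d X j k) (map_zero _)

/-- The unit on cartesian complexes. -/
def unEc (T : Site) (s : ℂ) : 𝟭 (St.CCx (T.toT s)) ⟶ Eca T s ⋙ Fca T s where
  app K := ObjectProperty.homMk ((unE T s).app K.obj)
  naturality K L u := by
    apply ObjectProperty.hom_ext
    exact (unE T s).naturality u.hom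

/-- The unit on cartesian complexes. -/
def unFc (T : Site) (s : ℂ) : 𝟭 (CartCx T s) ⟶ Fca T s ⋙ Eca T s where
  app K := ObjectProperty.homMk ((unF T s).app K.obj)
  naturality K L u := by
    apply ObjectProperty.hom_ext
    exact (unF T s).naturality u.hom

instance (T : Site) (s : ℂ) : (Elo T s).IsLocalizedEquivalence :=
  LocalizerMorphism.isLocalizedEquivalence_of_unit_of_unit (Elo T s) (Flo T s) (unEc T s)
    (unFc T s) (fun K => unE_qis K.obj) (fun K => unF_qis K.obj)

instance (T : Site) (s : ℂ) : (Flo T s).IsLocalizedEquivalence :=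
  LocalizerMorphism.isLocalizedEquivalence_of_unit_of_unit (Flo T s) (Elo T s) (unFc T s)
    (unEc T s) (fun K => unF_qis K.obj) (fun K => unE_qis K.obj)

/-- The morphism of localizers defined by a quasi-equivalence. -/
abbrev plo {Φ : TDMod T s ⥤ TDMod T' s'} [Φ.Additive] [Φ.Linear ℂ] (h : IsQuasiEquiv Φ) :
    LocalizerMorphism (qisCart T s) (qisCart T' s') :=
  (PresCart.mk h.cart h.qis).localizer

theorem plo_equiv {Φ : TDMod T s ⥤ TDMod T' s'} [Φ.Additive] [Φ.Linear ℂ] (h : IsQuasiEquiv Φ) :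
    (plo h).IsLocalizedEquivalence := h.equiv

/-- A quasi-equivalence for the first definition gives one for the second one. -/
theorem stStep {Φ : TDMod T s ⥤ TDMod T' s'} [Φ.Additive] [Φ.Linear ℂ] (h : IsQuasiEquiv Φ) :
    St.DGStep (T.toT s) (T'.toT s') := by
  refine ⟨E T s ⋙ Φ ⋙ F T' s', inferInstance, inferInstance,
    Eca T s ⋙ (plo h).functor ⋙ Fca T' s', ⟨Iso.refl _⟩, ?_⟩
  have := plo_equiv h
  let L : LocalizerMorphism (St.CCx.qis (T.toT s)) (St.CCx.qis (T'.toT s')) :=
    (Elo T s).comp ((plo h).comp (Flo T' s'))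
  have hL : L.IsLocalizedEquivalence := inferInstance
  let G := L.localizedFunctor (St.CCx.qis (T.toT s)).Q (St.CCx.qis (T'.toT s')).Q
  have hG : G.IsEquivalence := inferInstance
  have e : L.functor ⋙ (St.CCx.qis (T'.toT s')).Q ≅ (St.CCx.qis (T.toT s)).Q ⋙ G :=
    CatCommSq.iso L.functor (St.CCx.qis (T.toT s)).Q (St.CCx.qis (T'.toT s')).Q G
  exact ⟨G, hG, ⟨e.symm⟩⟩

theorem dgEquivalent {P Q : Site × ℂ} (h : DGEquivalent P Q) :
    St.DGEquivalent (P.1.toT P.2) (Q.1.toT Q.2) := by
  induction h with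
  | rel P Q h =>
    obtain ⟨Φ, h1, h2, h3⟩ := h
    exact Relation.EqvGen.rel _ _ (stStep h3)
  | refl P => exact Relation.EqvGen.refl _
  | symm P Q _ ih => exact Relation.EqvGen.symm _ _ ih
  | trans P Q R _ _ ih1 ih2 => exact Relation.EqvGen.trans _ _ _ ih1 ih2

end Br

end

end Vale.Agent.P286
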