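import Vale.Agent.P286.Site

/-!
# Complexes of modules: exact sequences, dévissage
-/

namespace Vale.Agent.P286

open CategoryTheory

variable {A : Type} [CommRing A]

namespace MCx

theorem dd_apply (C : MCx A) (i j k : ℤ) (x : C.X i) : C.d j k (C.d i j x) = 0 := by
  have := LinearMap.congr_fun (C.dd i j k) x
  simpa using this

/-- acyclic complexes -/
def Acyclic (C : MCx A) : Prop := ∀ i j k : ℤ, i + 1 = j → j + 1 = k →
  ∀ z : C.X j, C.d j k z = 0 → ∃ y : C.X i, C.d i j y = z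

/-- multiplication by `θ` is injective on the cohomology -/
def HInj (C : MCx A) (θ : A) : Prop := ∀ i j k : ℤ, i + 1 = j → j + 1 = k →
  ∀ z : C.X j, C.d j k z = 0 → (∃ y : C.X i, C.d i j y = θ • z) → ∃ y : C.X i, C.d i j y = z

/-- multiplication by `θ` is surjective on the cohomology -/
def HSurj (C : MCx A) (θ : A) : Prop := ∀ i j k : ℤ, i + 1 = j → j + 1 = k →
  ∀ z : C.X j, C.d j k z = 0 → ∃ (z' : C.X j) (y : C.X i), C.d j k z' = 0 ∧ z = θ • z' + C.d i j y

/-- multiplication by `θ` is bijective on the cohomology -/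
def HBij (C : MCx A) (θ : A) : Prop := C.HInj θ ∧ C.HSurj θ

theorem Acyclic.hBij {C : MCx A} (h : C.Acyclic) (θ : A) : C.HBij θ := by
  refine ⟨fun i j k hi hj z hz _ => h i j k hi hj z hz, fun i j k hi hj z hz => ?_⟩
  obtain ⟨y, hy⟩ := h i j k hi hj z hz
  exact ⟨0, y, by simp, by simp [hy]⟩

theorem HBij.acyclic {C : MCx A} {θ : A} (h : C.HBij θ) (h0 : ∀ i (z : C.X i), θ • z = 0) :
    C.Acyclic := by
  intro i j k hi hj z hz
  exact h.1 i j k hi hj z hz ⟨0, by simp [h0]⟩

theorem HBij.pow_inj {C : MCx A} {θ : A} (h : C.HInj θ) (n : ℕ) : C.HInj (θ ^ n) := by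
  induction n with
  | zero =>
    intro i j k hi hj z hz ⟨y, hy⟩
    exact ⟨y, by simpa using hy⟩
  | succ n ih =>
    intro i j k hi hj z hz ⟨y, hy⟩
    apply ih i j k hi hj z hz
    apply h i j k hi hj (θ ^ n • z) (by simp [hz])
    exact ⟨y, by rw [hy, pow_succ', mul_smul]⟩

theorem HBij.pow_surj {C : MCx A} {θ : A} (h : C.HSurj θ) (n : ℕ) : C.HSurj (θ ^ n) := by
  induction n with
  | zero =>
    intro i j k hi hj z hz
    exact ⟨z, 0, hz, by simp⟩
  | succ n ih =>
    intro i j k hi hj z hz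
    obtain ⟨z', y, hz', rfl⟩ := ih i j k hi hj z hz
    obtain ⟨z'', y', hz'', rfl⟩ := h i j k hi hj z' hz'
    refine ⟨z'', y + θ ^ n • y', hz'', ?_⟩
    simp only [smul_add, map_add, map_smul, pow_succ, mul_smul]
    abel

/-- short exact sequences of complexes -/
structure SES (C' C C'' : MCx A) (α : ∀ i, C'.X i →ₗ[A] C.X i) (β : ∀ i, C.X i →ₗ[A] C''.X i) :
    Prop where
  commα : ∀ i j x, α j (C'.d i j x) = C.d i j (α i x)
  commβ : ∀ i j x, β j (C.d i j x) = C''.d i j (β i x)
  inj : ∀ i, Function.Injective (α i)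
  exact : ∀ i, Function.Exact (α i) (β i)
  surj : ∀ i, Function.Surjective (β i)

namespace SES

variable {C' C C'' : MCx A} {α : ∀ i, C'.X i →ₗ[A] C.X i} {β : ∀ i, C.X i →ₗ[A] C''.X i}

theorem bcomp (h : SES C' C C'' α β) (i : ℤ) (x : C'.X i) : β i (α i x) = 0 :=
  (h.exact i _).2 ⟨x, rfl⟩

/-- If the quotient complex is acyclic, then the subcomplex has the same cohomology. -/
theorem hIso (h : SES C' C C'' α β) (hC : C''.Acyclic) (i j k : ℤ) (hi : i + 1 = j)
    (hj : j + 1 = k) :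
    (∀ z : C'.X j, C'.d j k z = 0 → (∃ y : C.X i, C.d i j y = α j z) → ∃ y, C'.d i j y = z) ∧
    (∀ z : C.X j, C.d j k z = 0 → ∃ (z' : C'.X j) (y : C.X i), C'.d j k z' = 0 ∧
      z = α j z' + C.d i j y) := by
  constructor
  · rintro z hz ⟨y, hy⟩
    have h1 : C''.d i j (β i y) = 0 := by rw [← h.commβ, hy, h.bcomp]
    obtain ⟨w'', hw''⟩ := hC (i - 1) i j (by ring) hi _ h1
    obtain ⟨w, rfl⟩ := h.surj (i - 1) w''
    have h2 : β i (y - C.d (i - 1) i w) = 0 := by rw [map_sub, h.commβ, hw'', sub_self]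
    obtain ⟨y', hy'⟩ := (h.exact i _).1 h2
    refine ⟨y', h.inj j ?_⟩
    rw [h.commα, hy', map_sub, dd_apply, sub_zero, hy]
  · intro z hz
    have h1 : C''.d j k (β j z) = 0 := by rw [← h.commβ, hz, map_zero]
    obtain ⟨w'', hw''⟩ := hC i j k hi hj _ h1
    obtain ⟨w, rfl⟩ := h.surj i w''
    have h2 : β j (z - C.d i j w) = 0 := by rw [map_sub, h.commβ, hw'', sub_self]
    obtain ⟨z', hz'⟩ := (h.exact j _).1 h2
    refine ⟨z', w, h.inj k ?_, ?_⟩
    · rw [h.commα, hz', map_sub, hz, dd_apply, sub_zero, map_zero]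
    · rw [hz', sub_add_cancel]

theorem hBij (h : SES C' C C'' α β) {θ : A} (h' : C'.HBij θ) (h'' : C''.HBij θ) : C.HBij θ := by
  constructor
  · rintro i j k hi hj z hz ⟨y, hy⟩
    obtain ⟨w'', hw''⟩ := h''.1 i j k hi hj (β j z) (by rw [← h.commβ, hz, map_zero])
      ⟨β i y, by rw [← h.commβ, hy, map_smul]⟩
    obtain ⟨w, rfl⟩ := h.surj i w''
    obtain ⟨z', hz'⟩ := (h.exact j (z - C.d i j w)).1 (by rw [map_sub, h.commβ, hw'', sub_self])
    have hz'0 : C'.d j k z' = 0 := by
      apply h.inj k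
      rw [h.commα, hz', map_sub, hz, dd_apply, sub_zero, map_zero]
    -- `y₁ = y - θ w`
    have e1 : C.d i j (y - θ • w) = α j (θ • z') := by
      rw [map_sub, hy, map_smul, map_smul, hz', smul_sub]
    have e2 : C''.d i j (β i (y - θ • w)) = 0 := by rw [← h.commβ, e1, h.bcomp]
    obtain ⟨u'', v'', hu'', huv⟩ := h''.2 (i - 1) i j (by ring) hi _ e2
    obtain ⟨u, rfl⟩ := h.surj i u''
    obtain ⟨v, rfl⟩ := h.surj (i - 1) v''
    obtain ⟨y', hy'⟩ := (h.exact i (y - θ • w - θ • u - C.d (i - 1) i v)).1 (by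
      rw [map_sub, map_sub, h.commβ, huv, map_smul]; abel)
    obtain ⟨t', ht'⟩ := (h.exact j (C.d i j u)).1 (by rw [h.commβ, hu''])
    have ht'0 : C'.d j k t' = 0 := by
      apply h.inj k
      rw [h.commα, ht', dd_apply, map_zero]
    have e3 : C'.d i j y' = θ • (z' - t') := by
      apply h.inj j
      rw [h.commα, hy', map_sub, map_sub, dd_apply, e1, map_smul, map_smul, map_smul, map_sub, ht',
        smul_sub]
      abel
    obtain ⟨x', hx'⟩ := h'.1 i j k hi hj (z' - t') (by rw [map_sub, hz'0, ht'0, sub_zero]) ⟨y', e3⟩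
    refine ⟨w + u + α i x', ?_⟩
    rw [map_add, map_add, ← h.commα, hx', map_sub, hz', ht']
    abel
  · intro i j k hi hj z hz
    obtain ⟨u'', v'', hu'', huv⟩ := h''.2 i j k hi hj (β j z) (by rw [← h.commβ, hz, map_zero])
    obtain ⟨u, rfl⟩ := h.surj j u''
    obtain ⟨v, rfl⟩ := h.surj i v''
    obtain ⟨t', ht'⟩ := (h.exact j (z - θ • u - C.d i j v)).1 (by
      rw [map_sub, map_sub, h.commβ, huv, map_smul]; abel)
    obtain ⟨r', hr'⟩ := (h.exact k (C.d j k u)).1 (by rw [h.commβ, hu''])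
    have hr'0 : C'.d k (k + 1) r' = 0 := by
      apply h.inj (k + 1)
      rw [h.commα, hr', dd_apply, map_zero]
    have e1 : C'.d j k (-t') = θ • r' := by
      apply h.inj k
      rw [map_neg, map_neg, h.commα, ht', map_sub, map_sub, hz, dd_apply, map_smul, map_smul, hr']
      simp
    obtain ⟨s', hs'⟩ := h'.1 j k (k + 1) hj rfl r' hr'0 ⟨-t', e1⟩
    have hts : C'.d j k (t' + θ • s') = 0 := by
      rw [map_add, map_smul, hs', ← e1, map_neg, add_neg_cancel]
    obtain ⟨a', b', ha', hab⟩ := h'.2 i j k hi hj (t' + θ • s') hts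
    refine ⟨u - α j s' + α j a', v + α i b', ?_, ?_⟩
    · rw [map_add, map_sub, ← h.commα, ← h.commα, hs', hr', ha', map_zero, sub_self, add_zero]
    · have e2 : α j (t' + θ • s') = α j (θ • a' + C'.d i j b') := by rw [hab]
      rw [map_add, map_add, map_smul, map_smul, ht', h.commα] at e2
      rw [map_add, smul_add, smul_sub]
      have : z = (z - θ • u - C.d i j v + θ • α j s') + θ • u + C.d i j v - θ • α j s' := by abel
      rw [this, e2]
      abel

end SES

/-- `N ⊗ P` -/
noncomputable abbrev tens (P : MCx A) (N : Type) [AddCommGroup N] [Module A N] : MCx A where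
  X i := TensorProduct A N (P.X i)
  d i j := LinearMap.lTensor N (P.d i j)
  dd i j k := by
    rw [← LinearMap.lTensor_comp, P.dd, LinearMap.lTensor_zero]

theorem tens_d (P : MCx A) (N : Type) [AddCommGroup N] [Module A N] (i j : ℤ) :
    (P.tens N).d i j = LinearMap.lTensor N (P.d i j) := rfl

theorem SES.tens {P : MCx A} (hP : ∀ i, Module.Flat A (P.X i)) {N' N N'' : Type} [AddCommGroup N']
    [Module A N'] [AddCommGroup N] [Module A N] [AddCommGroup N''] [Module A N'']
    (u : N' →ₗ[A] N) (v : N →ₗ[A] N'') (hu : Function.Injective u) (huv : Function.Exact u v)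
    (hv : Function.Surjective v) :
    SES (P.tens N') (P.tens N) (P.tens N'') (fun i => LinearMap.rTensor (P.X i) u)
      (fun i => LinearMap.rTensor (P.X i) v) where
  commα i j x := LinearMap.congr_fun ((LinearMap.rTensor_comp_lTensor _ u (P.d i j)).trans
    (LinearMap.lTensor_comp_rTensor _ u (P.d i j)).symm) x
  commβ i j x := LinearMap.congr_fun ((LinearMap.rTensor_comp_lTensor _ v (P.d i j)).trans
    (LinearMap.lTensor_comp_rTensor _ v (P.d i j)).symm) x
  inj i := by
    have := hP i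
    exact Module.Flat.rTensor_preserves_injective_linearMap u hu
  exact i := rTensor_exact (P.X i) huv hv
  surj i := LinearMap.rTensor_surjective (P.X i) hv

end MCx

end Vale.Agent.P286
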