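import Vale.Agent.P286.H527.Test

/-!
# Cartesian complexes on `Bun` are determined by their restriction to the trivial bundle
-/

namespace Vale.Agent.P286

open CategoryTheory LaurentPolynomial TensorProduct

noncomputable section

variable {n d : ℕ}

/-- If `K(Y)` is acyclic, then the base change of a flat resolution of `K(X)` to `Y` is acyclic. -/
theorem acyclic_tens {T : Site} {s : ℂ} {K : TCx T s} {X Y : T.C} (ρ : X ⟶ Y)
    (hY : ∀ (j : ℤ) (z : K.obj j Y), K.Cyc Y j z → K.Bd Y j z) (P : MCx (T.R X))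
    (p : ∀ i, P.X i →ₗ[T.R X] K.obj i X)
    (hpd : ∀ i j x, p j (P.d i j x) = K.d X i j (p i x))
    (hp : ∀ (i j k : ℤ), i + 1 = j → j + 1 = k →
        HIso (ExtS.map (T.res ρ).toRingHom (P.d i j)) (ExtS.map (T.res ρ).toRingHom (P.d j k))
          (K.d Y i j) (K.d Y j k)
          (ExtS.lift (T.res ρ).toRingHom ((K.map ρ j).comp (p j).toAddMonoidHom)
            (fun a x => by simp [TCx.map, TDMod.map_smul]))) :
    letI : Module (T.R X) (T.R Y) := Module.compHom (T.R Y) (T.res ρ).toRingHom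
    (P.tens (T.R Y)).Acyclic := by
  intro i j k hi hj z hz
  refine hIso_acyclic (hp i j k hi hj) (ExtS.lift (T.res ρ).toRingHom
    ((K.map ρ k).comp (p k).toAddMonoidHom) (fun a x => by simp [TCx.map, TDMod.map_smul]))
    (fun x => ?_) (fun y hy => ?_) z hz
  · refine ExtS.lift_map (T.res ρ).toRingHom (P.d j k) (K.d Y j k) (fun b x => K.d_smul Y j k b x)
      ((K.map ρ j).comp (p j).toAddMonoidHom) (fun a x => by simp [TCx.map, TDMod.map_smul])
      ((K.map ρ k).comp (p k).toAddMonoidHom) (fun a x => by simp [TCx.map, TDMod.map_smul])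
      (fun x => ?_) x
    change K.d Y j k (K.map ρ j (p j x)) = K.map ρ k (p k (P.d j k x))
    rw [K.d_map, hpd]
  · obtain rfl : k = j + 1 := hj.symm
    obtain rfl : i = j - 1 := by omega
    exact hY j y hy

/-- A localization `f : A → B` as a map of `A`-modules. -/
theorem isLocalizedModule_ringHom {A B : Type} [CommRing A] [CommRing B] (f : A →+* B) (θ : A)
    (hloc : @IsLocalization.Away A _ θ B _ f.toAlgebra) :
    letI : Module A B := Module.compHom B f
    ∃ u : A →ₗ[A] B, u 1 = 1 ∧ IsLocalizedModule (Submonoid.powers θ) u := by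
  let : Module A B := Module.compHom B f
  have hB : ∀ (a : A) (x : B), a • x = f a * x := fun _ _ => rfl
  let u : A →ₗ[A] B :=
    { toFun := f
      map_add' := map_add _
      map_smul' := fun a x => by
        rw [smul_eq_mul, map_mul, RingHom.id_apply]
        exact (hB a _).symm }
  exact ⟨u, map_one f, @isLocalizedModule_of_isLocalization A A B _ _ _ f.toAlgebra
    (RingHom.id A) θ _ _ (fun _ _ => rfl) hB hloc u fun _ => rfl⟩

theorem isLocalizedModule_lo {A : Type} [CommRing A] [Algebra ℂ A] (θ : A) :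
    letI : Module A (Lo θ) := Module.compHom (Lo θ) (IsScalarTower.toAlgHom ℂ A (Lo θ)).toRingHom
    ∃ u : A →ₗ[A] Lo θ, u 1 = 1 ∧ IsLocalizedModule (Submonoid.powers θ) u := by
  refine isLocalizedModule_ringHom _ θ ?_
  have h : (algebraMap A (Lo θ)).toAlgebra = (inferInstance : Algebra A (Lo θ)) :=
    Algebra.algebra_ext _ _ fun _ => rfl
  change @IsLocalization.Away A _ θ (Lo θ) _ (algebraMap A (Lo θ)).toAlgebra
  rw [h]
  infer_instance

/-- If `φ : X ⟶ Z` is a localization at `θ` and `θ` acts bijectively on the cohomology of a flat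
resolution of `K(X)`, then the transition map along `φ` is a quasi-isomorphism. -/
theorem hIso_of_localization {T : Site} {s : ℂ} {K : TCx T s} {X Z : T.C} (φ : X ⟶ Z) (θ : T.R X)
    (hu : letI : Module (T.R X) (T.R Z) := Module.compHom (T.R Z) (T.res φ).toRingHom
      ∃ u : T.R X →ₗ[T.R X] T.R Z, u 1 = 1 ∧ IsLocalizedModule (Submonoid.powers θ) u)
    (P : MCx (T.R X)) (hB : P.HBij θ)
    (p : ∀ i, P.X i →ₗ[T.R X] K.obj i X)
    (hpd : ∀ i j x, p j (P.d i j x) = K.d X i j (p i x))
    (hp : ∀ i j k, i + 1 = j → j + 1 = k →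
        HIso (P.d i j).toAddMonoidHom (P.d j k).toAddMonoidHom (K.d X i j) (K.d X j k)
          (p j).toAddMonoidHom)
    (hq : ∀ (i j k : ℤ), i + 1 = j → j + 1 = k →
        HIso (ExtS.map (T.res φ).toRingHom (P.d i j)) (ExtS.map (T.res φ).toRingHom (P.d j k))
          (K.d Z i j) (K.d Z j k)
          (ExtS.lift (T.res φ).toRingHom ((K.map φ j).comp (p j).toAddMonoidHom)
            (fun a x => by simp [TCx.map, TDMod.map_smul])))
    (i j k : ℤ) (hi : i + 1 = j) (hj : j + 1 = k) :
    HIso (K.d X i j) (K.d X j k) (K.d Z i j) (K.d Z j k) (K.map φ j) := by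
  let : Module (T.R X) (T.R Z) := Module.compHom (T.R Z) (T.res φ).toRingHom
  obtain ⟨u, hu1, hu⟩ := hu
  let L : ∀ i, P.X i →ₗ[T.R X] TensorProduct (T.R X) (T.R Z) (P.X i) := fun i =>
    (LinearMap.rTensor (P.X i) u).comp (TensorProduct.lid (T.R X) (P.X i)).symm.toLinearMap
  have hLa : ∀ i x, L i x = (1 : T.R Z) ⊗ₜ[T.R X] x := fun i x => by
    rw [← hu1]
    rfl
  have hL : ∀ i, IsLocalizedModule (Submonoid.powers θ) (L i) := fun i =>
    isLocalizedModule_tensor u hu (P.X i)
  have hLd : ∀ i j x, LinearMap.lTensor (T.R Z) (P.d i j) (L i x) = L j (P.d i j x) := by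
    intro i j x
    rw [hLa, hLa, LinearMap.lTensor_tmul]
  have h1 := hB.hIso L hL hLd i j k hi hj
  have h2 := hq i j k hi hj
  have hch : ∀ (i j : ℤ) (x : ExtS (T.res φ).toRingHom (P.X i)),
      K.d Z i j (ExtS.lift (T.res φ).toRingHom ((K.map φ i).comp (p i).toAddMonoidHom)
            (fun a x => by simp [TCx.map, TDMod.map_smul]) x) =
      ExtS.lift (T.res φ).toRingHom ((K.map φ j).comp (p j).toAddMonoidHom)
            (fun a x => by simp [TCx.map, TDMod.map_smul])
        (ExtS.map (T.res φ).toRingHom (P.d i j) x) := by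
    intro i j x
    refine ExtS.lift_map (T.res φ).toRingHom (P.d i j) (K.d Z i j)
      (fun b x => K.d_smul Z i j b x)
      ((K.map φ i).comp (p i).toAddMonoidHom) (fun a x => by simp [TCx.map, TDMod.map_smul])
      ((K.map φ j).comp (p j).toAddMonoidHom) (fun a x => by simp [TCx.map, TDMod.map_smul])
      (fun x => ?_) x
    change K.d Z i j (K.map φ i (p i x)) = K.map φ j (p j (P.d i j x))
    rw [K.d_map, hpd]
  have h3 := HIso.comp h1 h2 (L k).toAddMonoidHom (fun x => hLd j k x)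
    (ExtS.lift (T.res φ).toRingHom ((K.map φ i).comp (p i).toAddMonoidHom)
            (fun a x => by simp [TCx.map, TDMod.map_smul])) (fun y => hch i j y)
  have h5 : (ExtS.lift (T.res φ).toRingHom ((K.map φ j).comp (p j).toAddMonoidHom)
            (fun a x => by simp [TCx.map, TDMod.map_smul])).comp (L j).toAddMonoidHom =
      (K.map φ j).comp (p j).toAddMonoidHom := by
    ext x
    have h6 : L j x = (1 : T.R Z) ⊗ₜ[T.R X] x := hLa j x
    change ExtS.lift (T.res φ).toRingHom ((K.map φ j).comp (p j).toAddMonoidHom)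
      (fun a x => by simp [TCx.map, TDMod.map_smul]) (L j x) = _
    rw [h6]
    change (1 : T.R Z) • K.map φ j (p j x) = _
    rw [one_smul]
    rfl
  rw [h5] at h3
  exact HIso.of_comp (hp i j k hi hj) h3 (p i).toAddMonoidHom (fun x => (hpd i j x).symm)
    (p k).toAddMonoidHom (fun x => (hpd j k x).symm) (K.map φ i) (fun y => K.d_map φ i j y)

/-- The transition map to the locus `θ ≠ 0` is a quasi-isomorphism for cartesian complexes. -/
theorem hIso_phi (hn : 0 < n) (hdn : d ∣ n) {s : ℂ}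
    (hs : ∀ m : ℤ, m ≠ 0 → ∀ k : ℤ, (k : ℂ) + s * m ≠ 0) {K : TCx (Bun n d) s} (hK : Cartesian K)
    (X : BunObj n d) (i j k : ℤ) (hi : i + 1 = j) (hj : j + 1 = k) :
    HIso (K.d X i j) (K.d X j k) (K.d (triv (Nat.pos_of_dvd_of_pos hdn hn) X.lo) i j)
      (K.d (triv (Nat.pos_of_dvd_of_pos hdn hn) X.lo) j k) (K.map (phi hn hdn X) j) := by
  obtain ⟨P, hP, p, hpd, hp, hq⟩ := hK X
  have hN : IsNoetherianRing X.A.R := Algebra.FiniteType.isNoetherianRing ℂ X.A.R
  have hB : P.HBij X.th := by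
    refine MCx.hBij_of_primes P hP X.th fun q hqp hθ => ?_
    obtain ⟨h, hh, Y, ρ, lam, hlam, hY, u, hu⟩ := exists_test hn hdn X q hθ
    have hYa : ∀ (j : ℤ) (z : K.obj j Y), K.Cyc Y j z → K.Bd Y j z :=
      fun j z hz => acyclic_split hs hK Y lam hlam hY j z hz
    have hac := acyclic_tens (T := Bun n d) (K := K) ρ hYa P p hpd
      (fun i j k hi hj => hq Y ρ i j k hi hj)
    exact ⟨h, hh, Y.A.R, inferInstance,
      Module.compHom Y.A.R ((Bun n d).res ρ).toRingHom, u, hu, hac⟩
  exact hIso_of_localization (T := Bun n d) (K := K) (phi hn hdn X) X.th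
    (isLocalizedModule_lo X.th) P hB p hpd hp
    (fun i j k hi hj => hq (triv (Nat.pos_of_dvd_of_pos hdn hn) X.lo) (phi hn hdn X) i j k hi hj)
    i j k hi hj

theorem eps1_qis (hn : 0 < n) (hdn : d ∣ n) {s : ℂ}
    (hs : ∀ m : ℤ, m ≠ 0 → ∀ k : ℤ, (k : ℂ) + s * m ≠ 0) (K : TCx (Bun n d) s)
    (hK : Cartesian K) :
    qis (Bun n d) s ((unitCx (Jfun n (Nat.pos_of_dvd_of_pos hdn hn) s) (Bfun n d s)
      (eps1 hn hdn s)).app K) :=
  fun X i j k hi hj => hIso_phi hn hdn hs hK X i j k hi hj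

end

end Vale.Agent.P286
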