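import Vale.Agent.P286.Site

/-!
# The algebra `B[T, T⁻¹]` and its Euler vector field
-/

namespace Vale.Agent.P286

open LaurentPolynomial

noncomputable section

section

variable (B : Type) [CommRing B] [Algebra ℂ B]

/-- the inclusion `B → B[T, T⁻¹]` -/
def Calg : B →ₐ[ℂ] B[T;T⁻¹] :=
  { (LaurentPolynomial.C : B →+* B[T;T⁻¹]) with
    commutes' := fun _ => rfl }

theorem Calg_apply (b : B) : Calg B b = LaurentPolynomial.C b := rfl

theorem Calg_coe : ((Calg B : B →ₐ[ℂ] B[T;T⁻¹]) : B →+* B[T;T⁻¹]) = LaurentPolynomial.C := rfl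

instance smooth_lau [Algebra.Smooth ℂ B] : Algebra.Smooth ℂ B[T;T⁻¹] := by
  have h1 : Algebra.Smooth (Polynomial B) B[T;T⁻¹] :=
    Algebra.Smooth.of_isLocalization_Away (Polynomial.X : Polynomial B)
  have h2 : Algebra.Smooth B (Polynomial B) := ⟨inferInstance, inferInstance⟩
  have h3 : Algebra.Smooth ℂ (Polynomial B) := Algebra.Smooth.comp ℂ B (Polynomial B)
  have h4 : IsScalarTower ℂ (Polynomial B) B[T;T⁻¹] := by
    apply IsScalarTower.of_algebraMap_eq'
    ext r
    rw [RingHom.comp_apply, IsScalarTower.algebraMap_apply ℂ B (Polynomial B),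
      Polynomial.algebraMap_eq, LaurentPolynomial.algebraMap_eq_toLaurent,
      Polynomial.toLaurent_C]
    rfl
  exact Algebra.Smooth.comp ℂ (Polynomial B) B[T;T⁻¹]

/-- the Euler operator `T d/dT` -/
def eulerFun (x : B[T;T⁻¹]) : B[T;T⁻¹] :=
  AddMonoidAlgebra.ofCoeff (Finsupp.onFinset x.coeff.support (fun k => (k : B) * x.coeff k)
    (fun k hk => by
      rw [Finsupp.mem_support_iff]
      intro h
      rw [h, mul_zero] at hk
      exact hk rfl))

theorem eulerFun_coeff (x : B[T;T⁻¹]) (k : ℤ) : (eulerFun B x).coeff k = (k : B) * x.coeff k := by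
  rfl

theorem eulerFun_add (x y : B[T;T⁻¹]) : eulerFun B (x + y) = eulerFun B x + eulerFun B y := by
  ext k
  rw [eulerFun_coeff, AddMonoidAlgebra.coeff_add, AddMonoidAlgebra.coeff_add, Finsupp.add_apply,
    Finsupp.add_apply, eulerFun_coeff, eulerFun_coeff, mul_add]

theorem eulerFun_C_mul_T (b : B) (k : ℤ) :
    eulerFun B (LaurentPolynomial.C b * T k) = (k : B[T;T⁻¹]) * (LaurentPolynomial.C b * T k) := by
  have h : (k : B[T;T⁻¹]) * (LaurentPolynomial.C b * T k) = LaurentPolynomial.C ((k : B) * b) * T k := by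
    rw [map_mul, map_intCast, mul_assoc]
  rw [h, ← single_eq_C_mul_T, ← single_eq_C_mul_T]
  ext l
  rw [eulerFun_coeff, AddMonoidAlgebra.coeff_single, AddMonoidAlgebra.coeff_single,
    Finsupp.single_apply, Finsupp.single_apply]
  split_ifs with hl
  · rw [hl]
  · rw [mul_zero]

theorem eulerFun_mul (x y : B[T;T⁻¹]) :
    eulerFun B (x * y) = x * eulerFun B y + y * eulerFun B x := by
  induction x using LaurentPolynomial.induction_on' with
  | add p q hp hq => rw [add_mul, eulerFun_add, hp, hq, eulerFun_add]; ring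
  | C_mul_T k a =>
    induction y using LaurentPolynomial.induction_on' with
    | add p q hp hq => rw [mul_add, eulerFun_add, hp, hq, eulerFun_add]; ring
    | C_mul_T l b =>
      have h : LaurentPolynomial.C a * T k * (LaurentPolynomial.C b * T l) =
          LaurentPolynomial.C (a * b) * (T (k + l) : B[T;T⁻¹]) := by
        rw [map_mul, T_add]; ring
      rw [h, eulerFun_C_mul_T, eulerFun_C_mul_T, eulerFun_C_mul_T, ← h]
      push_cast
      ring

/-- The Euler vector field `T d/dT`. -/
def eulerD : Derivation ℂ B[T;T⁻¹] B[T;T⁻¹] :=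
  Derivation.mk'
    { toFun := eulerFun B
      map_add' := eulerFun_add B
      map_smul' := fun c x => by
        ext k
        rw [RingHom.id_apply, eulerFun_coeff]
        change _ = c • (eulerFun B x).coeff k
        rw [eulerFun_coeff]
        change (k : B) * (c • x.coeff k) = _
        rw [mul_smul_comm] }
    (fun x y => eulerFun_mul B x y)

theorem eulerD_C (b : B) : eulerD B (LaurentPolynomial.C b) = 0 := by
  have := eulerFun_C_mul_T B b 0
  rw [T_zero, mul_one, Int.cast_zero, zero_mul] at this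
  exact this

theorem eulerD_T (k : ℤ) : eulerD B (T k) = (k : B[T;T⁻¹]) * T k := by
  have := eulerFun_C_mul_T B 1 k
  rw [map_one, one_mul] at this
  exact this

/-- `B[T, T⁻¹]` is a free module with basis `T ^ k`. -/
def laurentEquiv : letI : Module B B[T;T⁻¹] := Module.compHom B[T;T⁻¹] (Calg B).toRingHom
    (ℤ →₀ B) ≃ₗ[B] B[T;T⁻¹] :=
  letI : Module B B[T;T⁻¹] := Module.compHom B[T;T⁻¹] (Calg B).toRingHom
  { AddMonoidAlgebra.coeffAddEquiv.symm with
    map_smul' := fun b x => by
      change AddMonoidAlgebra.ofCoeff (b • x) =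
        LaurentPolynomial.C b * (AddMonoidAlgebra.ofCoeff x : B[T;T⁻¹])
      rw [← LaurentPolynomial.smul_eq_C_mul]
      rfl }

theorem laurentEquiv_single (k : ℤ) : laurentEquiv B (Finsupp.single k 1) = T k := rfl

end

end

end Vale.Agent.P286
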