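import Vale.Agent.P286.H527.Noeth

/-!
# Cartesian complexes and free extensions of the test algebra
-/

namespace Vale.Agent.P286

open CategoryTheory TensorProduct

section FreeExt

variable {A B : Type} [CommRing A] [AddCommGroup B] [Module A B]

/-- `B ⊗ P` for a free module `B` with basis indexed by `ℤ`. -/
noncomputable def freeEquiv (E : (ℤ →₀ A) ≃ₗ[A] B) (P : Type) [AddCommGroup P] [Module A P] :
    (ℤ →₀ P) ≃ₗ[A] B ⊗[A] P :=
  (TensorProduct.finsuppScalarLeft A P ℤ).symm ≪≫ₗ LinearEquiv.rTensor P E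

theorem freeEquiv_single (E : (ℤ →₀ A) ≃ₗ[A] B) (P : Type) [AddCommGroup P] [Module A P] (k : ℤ)
    (x : P) : freeEquiv E P (Finsupp.single k x) = E (Finsupp.single k 1) ⊗ₜ x := by
  have : (TensorProduct.finsuppScalarLeft A P ℤ).symm (Finsupp.single k x) =
      (Finsupp.single k (1 : A)) ⊗ₜ x := by
    rw [LinearEquiv.symm_apply_eq]
    ext i
    rw [TensorProduct.finsuppScalarLeft_apply_tmul_apply]
    by_cases h : k = i
    · subst h; simp
    · simp [Finsupp.single_apply, h]
  rw [freeEquiv, LinearEquiv.trans_apply, this]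
  rfl

theorem lTensor_freeEquiv (E : (ℤ →₀ A) ≃ₗ[A] B) {P Q : Type} [AddCommGroup P] [Module A P]
    [AddCommGroup Q] [Module A Q] (u : P →ₗ[A] Q) (m : ℤ →₀ P) :
    LinearMap.lTensor B u (freeEquiv E P m) = freeEquiv E Q (m.mapRange u (map_zero u)) := by
  induction m using Finsupp.induction_linear with
  | zero => simp
  | add f g hf hg => rw [map_add, map_add, hf, hg, Finsupp.mapRange_add u.map_add, map_add]
  | single k x => rw [freeEquiv_single, Finsupp.mapRange_single, freeEquiv_single,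
      LinearMap.lTensor_tmul]

end FreeExt

namespace TCx

variable {T : Site} {s : ℂ} (K : TCx T s)

theorem d_act (X : T.C) (i j : ℤ) (v : T.Der X) (x : K.obj i X) :
    K.d X i j ((HomologicalComplex.X K i).act X v x) =
      (HomologicalComplex.X K j).act X v (K.d X i j x) :=
  TDMod.Hom.act (HomologicalComplex.d K i j) X v x

theorem d_smul (X : T.C) (i j : ℤ) (a : T.R X) (x : K.obj i X) :
    K.d X i j (a • x) = a • K.d X i j x :=
  _root_.map_smul (TDMod.Hom.app (HomologicalComplex.d K i j) X) a x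

theorem d_map {X Y : T.C} (φ : X ⟶ Y) (i j : ℤ) (x : K.obj i X) :
    K.d Y i j (K.map φ i x) = K.map φ j (K.d X i j x) :=
  TDMod.Hom.nat (HomologicalComplex.d K i j) φ x

theorem dd (X : T.C) (i j k : ℤ) (x : K.obj i X) : K.d X j k (K.d X i j x) = 0 := by
  have h : HomologicalComplex.d K i j ≫ HomologicalComplex.d K j k = 0 :=
    HomologicalComplex.d_comp_d K i j k
  have := congrArg (fun f : HomologicalComplex.X K i ⟶ HomologicalComplex.X K k =>
    TDMod.Hom.app f X x) h
  exact this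

theorem map_smul {X Y : T.C} (φ : X ⟶ Y) (i : ℤ) (a : T.R X) (x : K.obj i X) :
    K.map φ i (a • x) = T.res φ a • K.map φ i x :=
  (HomologicalComplex.X K i).map_smul φ a x

theorem map_id (X : T.C) (i : ℤ) (x : K.obj i X) : K.map (𝟙 X) i x = x :=
  (HomologicalComplex.X K i).map_id X x

theorem map_comp {X Y Z : T.C} (φ : X ⟶ Y) (ψ : Y ⟶ Z) (i : ℤ) (x : K.obj i X) :
    K.map (φ ≫ ψ) i x = K.map ψ i (K.map φ i x) :=
  (HomologicalComplex.X K i).map_comp φ ψ x

/-- `z` is a cocycle -/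
def Cyc (X : T.C) (j : ℤ) (z : K.obj j X) : Prop := K.d X j (j + 1) z = 0

/-- `z` is a boundary -/
def Bd (X : T.C) (j : ℤ) (z : K.obj j X) : Prop := ∃ y, K.d X (j - 1) j y = z

variable {K}

theorem Bd.add {X : T.C} {j : ℤ} {z z' : K.obj j X} (h : K.Bd X j z) (h' : K.Bd X j z') :
    K.Bd X j (z + z') := by
  obtain ⟨y, rfl⟩ := h
  obtain ⟨y', rfl⟩ := h'
  exact ⟨y + y', map_add _ _ _⟩

theorem Bd.neg {X : T.C} {j : ℤ} {z : K.obj j X} (h : K.Bd X j z) : K.Bd X j (-z) := by
  obtain ⟨y, rfl⟩ := h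
  exact ⟨-y, map_neg _ _⟩

theorem Bd.sub {X : T.C} {j : ℤ} {z z' : K.obj j X} (h : K.Bd X j z) (h' : K.Bd X j z') :
    K.Bd X j (z - z') := by
  rw [sub_eq_add_neg]
  exact h.add h'.neg

theorem Bd.zero {X : T.C} {j : ℤ} : K.Bd X j 0 := ⟨0, map_zero _⟩

theorem Bd.smul {X : T.C} {j : ℤ} {z : K.obj j X} (h : K.Bd X j z) (a : T.R X) :
    K.Bd X j (a • z) := by
  obtain ⟨y, rfl⟩ := h
  exact ⟨a • y, K.d_smul _ _ _ _ _⟩

theorem Bd.map {X Y : T.C} {j : ℤ} {z : K.obj j X} (h : K.Bd X j z) (φ : X ⟶ Y) :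
    K.Bd Y j (K.map φ j z) := by
  obtain ⟨y, rfl⟩ := h
  exact ⟨K.map φ _ y, K.d_map _ _ _ _⟩

theorem Bd.act {X : T.C} {j : ℤ} {z : K.obj j X} (h : K.Bd X j z) (v : T.Der X) :
    K.Bd X j ((HomologicalComplex.X K j).act X v z) := by
  obtain ⟨y, rfl⟩ := h
  exact ⟨(HomologicalComplex.X K _).act X v y, K.d_act _ _ _ _ _⟩

theorem Bd.sum {X : T.C} {j : ℤ} {ι : Type} (t : Finset ι) {z : ι → K.obj j X}
    (h : ∀ a ∈ t, K.Bd X j (z a)) : K.Bd X j (∑ a ∈ t, z a) := by
  classical
  induction t using Finset.induction_on with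
  | empty => simpa using Bd.zero
  | insert a t ha ih =>
    rw [Finset.sum_insert ha]
    exact (h a (by simp)).add (ih fun b hb => h b (by simp [hb]))

theorem Cyc.map {X Y : T.C} {j : ℤ} {z : K.obj j X} (h : K.Cyc X j z) (φ : X ⟶ Y) :
    K.Cyc Y j (K.map φ j z) := by
  unfold Cyc at *
  rw [K.d_map, h, map_zero]

theorem Bd.cyc {X : T.C} {j : ℤ} {z : K.obj j X} (h : K.Bd X j z) : K.Cyc X j z := by
  obtain ⟨y, rfl⟩ := h
  exact K.dd _ _ _ _ _

end TCx

/-- The statement that `K(Y)` is the base change of `K(X)` along `ι : X ⟶ Y`, when `R Y` is free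
over `R X` with basis `e`. -/
theorem Cartesian.free {T : Site} {s : ℂ} {K : TCx T s} (hK : Cartesian K) {X Y : T.C}
    (ι : X ⟶ Y) (e : ℤ → T.R Y)
    (E : letI : Module (T.R X) (T.R Y) := Module.compHom (T.R Y) (T.res ι).toRingHom
      (ℤ →₀ T.R X) ≃ₗ[T.R X] T.R Y)
    (hE : ∀ k, E (Finsupp.single k 1) = e k) (j : ℤ) :
    (∀ m : ℤ →₀ K.obj j X, (∀ k, K.Cyc X j (m k)) →
      K.Bd Y j (m.sum fun k x => e k • K.map ι j x) → ∀ k, K.Bd X j (m k)) ∧
    (∀ n : K.obj j Y, K.Cyc Y j n → ∃ m : ℤ →₀ K.obj j X, (∀ k, K.Cyc X j (m k)) ∧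
      K.Bd Y j (n - m.sum fun k x => e k • K.map ι j x)) := by
  classical
  obtain ⟨P, hP, p, hpd, hp, hq⟩ := hK X
  let : Module (T.R X) (T.R Y) := Module.compHom (T.R Y) (T.res ι).toRingHom
  obtain ⟨hp1, hp2⟩ := hp (j - 1) j (j + 1) (by ring) rfl
  obtain ⟨hq1, hq2⟩ := hq Y ι (j - 1) j (j + 1) (by ring) rfl
  -- the value of `q` on `Σ e_k ⊗ x_k`
  have hlift : ∀ x : ℤ →₀ P.X j, ExtS.lift (T.res ι).toRingHom
      ((K.map ι j).comp (p j).toAddMonoidHom) (fun a x => by simp [TCx.map, TDMod.map_smul])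
      (freeEquiv E (P.X j) x) = x.sum fun k y => e k • K.map ι j (p j y) := by
    intro x
    induction x using Finsupp.induction_linear with
    | zero => rw [map_zero, Finsupp.sum_zero_index]; exact map_zero _
    | add f g hf hg =>
      rw [map_add, map_add, hf, hg, Finsupp.sum_add_index]
      · intro a _; simp
      · intro a _ b c; simp
    | single k y =>
      rw [freeEquiv_single, hE, Finsupp.sum_single_index (by simp)]
      rfl
  have hmap : ∀ (i j : ℤ) (x : ℤ →₀ P.X i), ExtS.map (T.res ι).toRingHom (P.d i j)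
      (freeEquiv E (P.X i) x) = freeEquiv E (P.X j) (x.mapRange (P.d i j) (map_zero _)) :=
    fun i j x => lTensor_freeEquiv E (P.d i j) x
  constructor
  · intro m hm hbd k
    -- choose cocycles of `P` representing the `m k`
    have hch : ∀ k, ∃ x : P.X j, P.d j (j + 1) x = 0 ∧ ∃ y, K.d X (j - 1) j y = m k - p j x := by
      intro k
      obtain ⟨x, hx, y, hy⟩ := hp2 (m k) (hm k)
      exact ⟨x, hx, y, hy⟩
    choose x hx y hy using hch
    let x' : ℤ →₀ P.X j := Finsupp.onFinset m.support (fun k => if m k = 0 then 0 else x k)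
      (fun k hk => by
        by_contra h
        rw [Finsupp.mem_support_iff, not_not] at h
        simp [h] at hk)
    have hx' : ∀ k, P.d j (j + 1) (x' k) = 0 := by
      intro k
      simp only [x', Finsupp.onFinset_apply]
      split_ifs
      · simp
      · exact hx k
    have hy' : ∀ k, K.Bd X j (m k - p j (x' k)) := by
      intro k
      simp only [x', Finsupp.onFinset_apply]
      split_ifs with h
      · rw [h, map_zero, sub_zero]; exact TCx.Bd.zero
      · exact ⟨y k, hy k⟩
    have hsum : K.Bd Y j ((m.sum fun k x => e k • K.map ι j x) -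
        (x'.sum fun k y => e k • K.map ι j (p j y))) := by
      have h1 : (x'.sum fun k y => e k • K.map ι j (p j y)) =
          ∑ k ∈ m.support, e k • K.map ι j (p j (x' k)) := by
        apply Finsupp.sum_of_support_subset
        · intro k hk
          by_contra h
          rw [Finsupp.mem_support_iff, not_not] at h
          rw [Finsupp.mem_support_iff] at hk
          apply hk
          simp [x', h]
        · intro k _; simp
      rw [h1, Finsupp.sum, ← Finset.sum_sub_distrib]
      apply TCx.Bd.sum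
      intro k _
      rw [← smul_sub, ← map_sub]
      exact ((hy' k).map ι).smul (e k)
    have hbd' : K.Bd Y j (x'.sum fun k y => e k • K.map ι j (p j y)) := by
      have := hbd.sub hsum
      simpa using this
    obtain ⟨w, hw⟩ := hbd'
    obtain ⟨w', hw'⟩ := hq1 (freeEquiv E (P.X j) x') (by
      rw [hmap]
      have : x'.mapRange (P.d j (j + 1)) (map_zero _) = 0 := by ext k; simp [hx']
      rw [this, map_zero]) ⟨w, by rw [hw, hlift]⟩
    obtain ⟨w'', rfl⟩ := (freeEquiv E (P.X (j - 1))).surjective w'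
    rw [hmap] at hw'
    have h2 := (freeEquiv E (P.X j)).injective hw'
    have h3 : P.d (j - 1) j (w'' k) = x' k := by
      rw [← h2]; simp
    have h4 : K.Bd X j (p j (x' k)) := ⟨p _ (w'' k), by rw [← hpd, h3]⟩
    have := (hy' k).add h4
    simpa using this
  · intro n hn
    obtain ⟨w, hw, y, hy⟩ := hq2 n hn
    obtain ⟨x, rfl⟩ := (freeEquiv E (P.X j)).surjective w
    rw [hmap] at hw
    have hx : x.mapRange (P.d j (j + 1)) (map_zero _) = 0 := by
      apply (freeEquiv E (P.X (j + 1))).injective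
      rw [hw, map_zero]
    refine ⟨x.mapRange (p j) (map_zero _), fun k => ?_, ⟨y, ?_⟩⟩
    · have h1 : P.d j (j + 1) (x k) = 0 := by
        have := congrArg (fun f : ℤ →₀ P.X (j + 1) => f k) hx
        simpa using this
      unfold TCx.Cyc
      rw [Finsupp.mapRange_apply, ← hpd, h1, map_zero]
    · rw [hy, hlift, Finsupp.sum_mapRange_index]
      intro k; simp

end Vale.Agent.P286
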