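import Vale.Agent.P286.H527.Noeth

/-!
# Quasi-isomorphisms of complexes, localization
-/

namespace Vale.Agent.P286

open CategoryTheory TensorProduct

section

variable {X₁ X₂ X₃ Y₁ Y₂ Y₃ Z₁ Z₂ Z₃ : Type} [AddCommGroup X₁] [AddCommGroup X₂] [AddCommGroup X₃]
    [AddCommGroup Y₁] [AddCommGroup Y₂] [AddCommGroup Y₃] [AddCommGroup Z₁] [AddCommGroup Z₂]
    [AddCommGroup Z₃] {d₁ : X₁ →+ X₂} {d₂ : X₂ →+ X₃} {e₁ : Y₁ →+ Y₂} {e₂ : Y₂ →+ Y₃}
    {f₁ : Z₁ →+ Z₂} {f₂ : Z₂ →+ Z₃} {u : X₂ →+ Y₂} {v : Y₂ →+ Z₂}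

theorem HIso.comp (hu : HIso d₁ d₂ e₁ e₂ u) (hv : HIso e₁ e₂ f₁ f₂ v)
    (u₃ : X₃ →+ Y₃) (hu₃ : ∀ x, e₂ (u x) = u₃ (d₂ x)) (v₁ : Y₁ →+ Z₁)
    (hv₁ : ∀ y, f₁ (v₁ y) = v (e₁ y)) : HIso d₁ d₂ f₁ f₂ (v.comp u) := by
  constructor
  · rintro x hx ⟨z, hz⟩
    exact hu.1 x hx (hv.1 (u x) (by rw [hu₃, hx, map_zero]) ⟨z, hz⟩)
  · intro z hz
    obtain ⟨y, hy, z', hz'⟩ := hv.2 z hz
    obtain ⟨x, hx, y', hy'⟩ := hu.2 y hy
    refine ⟨x, hx, z' + v₁ y', ?_⟩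
    rw [map_add, hz', hv₁, hy', map_sub, AddMonoidHom.comp_apply]
    abel

theorem HIso.of_comp (hu : HIso d₁ d₂ e₁ e₂ u) (hvu : HIso d₁ d₂ f₁ f₂ (v.comp u))
    (u₁ : X₁ →+ Y₁) (hu₁ : ∀ x, e₁ (u₁ x) = u (d₁ x)) (u₃ : X₃ →+ Y₃)
    (hu₃ : ∀ x, e₂ (u x) = u₃ (d₂ x)) (v₁ : Y₁ →+ Z₁)
    (hv₁ : ∀ y, f₁ (v₁ y) = v (e₁ y)) : HIso e₁ e₂ f₁ f₂ v := by
  constructor
  · rintro y hy ⟨z, hz⟩
    obtain ⟨x, hx, y', hy'⟩ := hu.2 y hy
    obtain ⟨x', hx'⟩ := hvu.1 x hx ⟨z - v₁ y', by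
      rw [map_sub, hz, hv₁, hy', map_sub, AddMonoidHom.comp_apply]
      abel⟩
    refine ⟨u₁ x' + y', ?_⟩
    rw [map_add, hu₁, hx', hy']
    abel
  · intro z hz
    obtain ⟨x, hx, z', hz'⟩ := hvu.2 z hz
    exact ⟨u x, by rw [hu₃, hx, map_zero], z', hz'⟩

theorem HIso.of_bij (u₁ : X₁ →+ Y₁) (h₁ : Function.Surjective u₁) (h₂ : Function.Bijective u)
    (u₃ : X₃ →+ Y₃) (h₃ : Function.Injective u₃) (hu₁ : ∀ x, e₁ (u₁ x) = u (d₁ x))
    (hu₃ : ∀ x, e₂ (u x) = u₃ (d₂ x)) : HIso d₁ d₂ e₁ e₂ u := by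
  constructor
  · rintro x _ ⟨y, hy⟩
    obtain ⟨x', rfl⟩ := h₁ y
    exact ⟨x', h₂.1 (by rw [← hu₁, hy])⟩
  · intro y hy
    obtain ⟨x, rfl⟩ := h₂.2 y
    exact ⟨x, h₃ (by rw [← hu₃, hy, map_zero]), 0, by rw [map_zero, sub_self]⟩

end

section

variable {A B : Type} [CommRing A] [CommRing B] (f : A →+* B)

theorem ExtS.lift_map {P Q N N' : Type} [AddCommGroup P] [Module A P] [AddCommGroup Q] [Module A Q]
    [AddCommGroup N] [Module B N] [AddCommGroup N'] [Module B N'] (d : P →ₗ[A] Q) (e : N →+ N')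
    (he : ∀ (b : B) (x : N), e (b • x) = b • e x) (u : P →+ N)
    (hu : ∀ (a : A) (x : P), u (a • x) = f a • u x) (u' : Q →+ N')
    (hu' : ∀ (a : A) (x : Q), u' (a • x) = f a • u' x) (h : ∀ x, e (u x) = u' (d x))
    (z : ExtS f P) : e (ExtS.lift f u hu z) = ExtS.lift f u' hu' (ExtS.map f d z) := by
  let : Module A B := Module.compHom B f
  induction z using TensorProduct.induction_on with
  | zero => simp only [map_zero]
  | tmul b x =>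
    change e (b • u x) = b • u' (d x)
    rw [he, h]
  | add x y hx hy => simp only [map_add, hx, hy]

/-- If a complex `L` is acyclic and the base change of `P` is quasi-isomorphic to it, then the base
change of `P` is acyclic. -/
theorem hIso_acyclic {X₁ X₂ X₃ Y₁ Y₂ Y₃ : Type} [AddCommGroup X₁] [AddCommGroup X₂] [AddCommGroup X₃]
    [AddCommGroup Y₁] [AddCommGroup Y₂] [AddCommGroup Y₃] {d₁ : X₁ →+ X₂} {d₂ : X₂ →+ X₃}
    {e₁ : Y₁ →+ Y₂} {e₂ : Y₂ →+ Y₃} {u : X₂ →+ Y₂} (hu : HIso d₁ d₂ e₁ e₂ u) (u₃ : X₃ →+ Y₃)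
    (hu₃ : ∀ x, e₂ (u x) = u₃ (d₂ x)) (hY : ∀ y, e₂ y = 0 → ∃ y', e₁ y' = y) (x : X₂)
    (hx : d₂ x = 0) : ∃ x', d₁ x' = x :=
  hu.1 x hx (hY (u x) (by rw [hu₃, hx, map_zero]))

/-- If `θ` acts bijectively on the cohomology of `P`, then `P` is quasi-isomorphic to its
localization. -/
theorem MCx.HBij.hIso {P : MCx A} {θ : A} (hP : P.HBij θ) {N : Type} [AddCommGroup N] [Module A N]
    (L : ∀ i, P.X i →ₗ[A] N ⊗[A] P.X i) (hL : ∀ i, IsLocalizedModule (Submonoid.powers θ) (L i))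
    (hLd : ∀ i j x, LinearMap.lTensor N (P.d i j) (L i x) = L j (P.d i j x))
    (i j k : ℤ) (hi : i + 1 = j) (hj : j + 1 = k) :
    HIso (P.d i j).toAddMonoidHom (P.d j k).toAddMonoidHom
      (LinearMap.lTensor N (P.d i j)).toAddMonoidHom (LinearMap.lTensor N (P.d j k)).toAddMonoidHom
      (L j).toAddMonoidHom := by
  have linj : ∀ (i : ℤ) (m : ℕ) (y : N ⊗[A] P.X i), θ ^ m • y = 0 → y = 0 := by
    intro i m y hy
    have := (Module.End.isUnit_iff _).1 ((hL i).map_units ⟨θ ^ m, m, rfl⟩)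
    apply this.1
    rw [map_zero]
    exact hy
  have lsurj : ∀ (i : ℤ) (m : ℕ) (y : N ⊗[A] P.X i), ∃ y', θ ^ m • y' = y := by
    intro i m y
    have := (Module.End.isUnit_iff _).1 ((hL i).map_units ⟨θ ^ m, m, rfl⟩)
    exact this.2 y
  constructor
  · rintro x hx ⟨y, hy⟩
    change P.d j k x = 0 at hx
    change LinearMap.lTensor N (P.d i j) y = L j x at hy
    obtain ⟨⟨y', ⟨_, m, rfl⟩⟩, hy'⟩ := (hL i).surj y
    have hy'' : θ ^ m • y = L i y' := hy'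
    have e1 : L j (θ ^ m • x) = L j (P.d i j y') := by
      rw [← hLd, ← hy'', map_smul, map_smul, hy]
    obtain ⟨⟨_, l, rfl⟩, hl⟩ := (hL j).exists_of_eq e1
    have hl' : θ ^ l • (θ ^ m • x) = θ ^ l • P.d i j y' := hl
    refine (HBij.pow_inj hP.1 (l + m)) i j k hi hj x hx ⟨θ ^ l • y', ?_⟩
    rw [map_smul, ← hl', pow_add, mul_smul]
  · intro y hy
    change LinearMap.lTensor N (P.d j k) y = 0 at hy
    obtain ⟨⟨x, ⟨_, m, rfl⟩⟩, hx⟩ := (hL j).surj y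
    have hx' : θ ^ m • y = L j x := hx
    have e1 : L k (P.d j k x) = L k 0 := by
      rw [← hLd, ← hx', map_smul, hy, smul_zero, map_zero]
    obtain ⟨⟨_, l, rfl⟩, hl⟩ := (hL k).exists_of_eq e1
    have hl' : θ ^ l • P.d j k x = θ ^ l • (0 : P.X k) := hl
    have hc : P.d j k (θ ^ l • x) = 0 := by rw [map_smul, hl', smul_zero]
    obtain ⟨x', w, hx'0, hxw⟩ := (HBij.pow_surj hP.2 (l + m)) i j k hi hj (θ ^ l • x) hc
    obtain ⟨w', hw'⟩ := lsurj i (l + m) (L i w)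
    refine ⟨x', hx'0, w', ?_⟩
    change LinearMap.lTensor N (P.d i j) w' = y - L j x'
    have e2 : θ ^ (l + m) • (y - L j x' - LinearMap.lTensor N (P.d i j) w') = 0 := by
      rw [smul_sub, smul_sub, ← map_smul (LinearMap.lTensor N (P.d i j)), hw', hLd,
        ← map_smul (L j), sub_sub, ← map_add (L j), ← hxw, map_smul, pow_add, mul_smul, hx', sub_self]
    have e3 := linj j (l + m) _ e2
    exact (sub_eq_zero.1 e3).symm

/-- The localization of a module as a tensor product. -/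
theorem isLocalizedModule_tensor {θ : A} {N : Type} [AddCommGroup N] [Module A N] (u : A →ₗ[A] N)
    (hu : IsLocalizedModule (Submonoid.powers θ) u) (P : Type) [AddCommGroup P] [Module A P] :
    IsLocalizedModule (Submonoid.powers θ)
      ((LinearMap.rTensor P u).comp (TensorProduct.lid A P).symm.toLinearMap) := by
  have : IsLocalizedModule (Submonoid.powers θ) (LinearMap.rTensor P u) :=
    IsLocalizedModule.rTensor (R := A) (A := A) (Submonoid.powers θ) (N := P) u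
  exact IsLocalizedModule.of_linearEquiv_right (Submonoid.powers θ) (LinearMap.rTensor P u)
    (TensorProduct.lid A P).symm

end

end Vale.Agent.P286
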