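import Vale.Agent.P286.Site

/-!
# Localization of smooth algebras and of their derivations
-/

namespace Vale.Agent.P286

section

variable {A B : Type} [CommRing A] [Algebra ℂ A] [CommRing B] [Algebra ℂ B]

/-- `A_θ` -/
abbrev Lo (θ : A) : Type := Localization.Away θ

instance smooth_Lo (θ : A) [Algebra.Smooth ℂ A] : Algebra.Smooth ℂ (Lo θ) :=
  have : Algebra.Smooth A (Lo θ) := Algebra.Smooth.of_isLocalization_Away θ
  Algebra.Smooth.comp ℂ A (Lo θ)

/-- the extension of a derivation to `A_θ` -/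
noncomputable def locDer (θ : A) (v : Derivation ℂ A A) : Derivation ℂ (Lo θ) (Lo θ) :=
  have : Algebra.FormallyEtale A (Lo θ) := Algebra.FormallyEtale.of_isLocalization (Submonoid.powers θ)
  ((KaehlerDifferential.isBaseChange_of_formallyEtale ℂ A (Lo θ)).lift
    ((Algebra.linearMap A (Lo θ)).comp v.liftKaehlerDifferential)).compDer
      (KaehlerDifferential.D ℂ (Lo θ))

theorem locDer_algebraMap (θ : A) (v : Derivation ℂ A A) (a : A) :
    locDer θ v (algebraMap A (Lo θ) a) = algebraMap A (Lo θ) (v a) := by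
  have : Algebra.FormallyEtale A (Lo θ) := Algebra.FormallyEtale.of_isLocalization (Submonoid.powers θ)
  have h := (KaehlerDifferential.isBaseChange_of_formallyEtale ℂ A (Lo θ)).lift_eq
    ((Algebra.linearMap A (Lo θ)).comp v.liftKaehlerDifferential) (KaehlerDifferential.D ℂ A a)
  rw [KaehlerDifferential.map_D] at h
  refine Eq.trans h ?_
  simp

omit [Algebra ℂ A] in
/-- A map satisfying the Leibniz rule on `A_θ` which vanishes on `A` is zero. -/
theorem leibniz_zero {N : Type} [CommRing N] (θ : A) (φ : Lo θ →+* N) (D : Lo θ → N)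
    (hmul : ∀ x y, D (x * y) = φ x * D y + φ y * D x)
    (h0 : ∀ a, D (algebraMap A (Lo θ) a) = 0) (x : Lo θ) : D x = 0 := by
  obtain ⟨⟨a, ⟨_, n, rfl⟩⟩, h⟩ := IsLocalization.surj (Submonoid.powers θ) x
  have h1 : D (x * algebraMap A (Lo θ) (θ ^ n)) = 0 := by
    rw [show x * algebraMap A (Lo θ) (θ ^ n) = algebraMap A (Lo θ) a from h, h0]
  rw [hmul, h0, mul_zero, zero_add] at h1
  have hu : IsUnit (φ (algebraMap A (Lo θ) (θ ^ n))) := by
    apply RingHom.isUnit_map
    exact IsLocalization.map_units (Lo θ) (⟨θ ^ n, n, rfl⟩ : Submonoid.powers θ)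
  exact hu.mul_right_eq_zero.1 h1

theorem locDer_unique (θ : A) (D D' : Derivation ℂ (Lo θ) (Lo θ))
    (h : ∀ a, D (algebraMap A (Lo θ) a) = D' (algebraMap A (Lo θ) a)) : D = D' := by
  ext x
  have := leibniz_zero θ (RingHom.id _) (fun x => D x - D' x) (fun x y => by
    simp only [Derivation.leibniz, smul_eq_mul, RingHom.id_apply]; ring) (fun a => by
    simp [h]) x
  exact sub_eq_zero.1 this

theorem locDer_add (θ : A) (v w : Derivation ℂ A A) : locDer θ (v + w) = locDer θ v + locDer θ w :=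
  locDer_unique θ _ _ fun a => by simp [locDer_algebraMap]

theorem locDer_smul (θ : A) (a : A) (v : Derivation ℂ A A) :
    locDer θ (a • v) = algebraMap A (Lo θ) a • locDer θ v :=
  locDer_unique θ _ _ fun b => by simp [locDer_algebraMap, Algebra.smul_def]

theorem locDer_lie (θ : A) (v w : Derivation ℂ A A) :
    locDer θ ⁅v, w⁆ = ⁅locDer θ v, locDer θ w⁆ :=
  locDer_unique θ _ _ fun b => by simp [locDer_algebraMap, Derivation.commutator_apply]

/-- the map `A_θ → B_θ'` induced by `f : A → B` if `f θ` is invertible in `B_θ'`. -/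
noncomputable def locMap {θ : A} {θ' : B} (f : A →ₐ[ℂ] B)
    (h : IsUnit (algebraMap B (Lo θ') (f θ))) : Lo θ →ₐ[ℂ] Lo θ' :=
  IsLocalization.liftAlgHom (M := Submonoid.powers θ)
    (f := ((IsScalarTower.toAlgHom ℂ B (Lo θ')).comp f)) (by
      rintro ⟨_, n, rfl⟩
      simp only [AlgHom.comp_apply, map_pow]
      exact h.pow n)

theorem locMap_algebraMap {θ : A} {θ' : B} (f : A →ₐ[ℂ] B)
    (h : IsUnit (algebraMap B (Lo θ') (f θ))) (a : A) :
    locMap f h (algebraMap A (Lo θ) a) = algebraMap B (Lo θ') (f a) := by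
  simp [locMap]

theorem lo_hom_ext {N : Type} [CommRing N] [Algebra ℂ N] {θ : A} (φ ψ : Lo θ →ₐ[ℂ] N)
    (h : ∀ a, φ (algebraMap A (Lo θ) a) = ψ (algebraMap A (Lo θ) a)) : φ = ψ := by
  have : (φ : Lo θ →+* N) = ψ := by
    apply IsLocalization.ringHom_ext (Submonoid.powers θ)
    ext a
    exact h a
  exact AlgHom.ext fun x => RingHom.congr_fun this x

end

end Vale.Agent.P286
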