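import Vale.Agent.P286.St.Grp
import Vale.Agent.P286.H211.Toep

/-!
# Base change of the embeddings `posGL`, `negGL`
-/

namespace Vale.Agent.P286
open LaurentPolynomial

variable {A B : Type} [CommRing A] [CommRing B]

theorem lmap_C (f : A →+* B) (r : A) : lmap f (C r) = C (f r) := by
  ext k
  simp only [lmap, AddMonoidAlgebra.coeff_mapRingHom, C_apply]
  split_ifs <;> simp

theorem lmap_toLaurent (f : A →+* B) :
    (lmap f).comp (Polynomial.toLaurent (R := A)) =
      (Polynomial.toLaurent (R := B)).comp (Polynomial.mapRingHom f) := by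
  apply Polynomial.ringHom_ext
  · intro r
    simp only [RingHom.comp_apply, Polynomial.toLaurent_C, Polynomial.coe_mapRingHom,
      Polynomial.map_C]
    exact lmap_C f r
  · simp only [RingHom.comp_apply, Polynomial.toLaurent_X, Polynomial.coe_mapRingHom,
      Polynomial.map_X]
    exact lmap_T f 1

theorem lmap_invert (f : A →+* B) (x : A[T;T⁻¹]) : lmap f (invert x) = invert (lmap f x) := by
  ext k
  simp only [lmap, AddMonoidAlgebra.coeff_mapRingHom, invert_apply]

theorem map_posGL {n : ℕ} (f : A →+* B) (a : Matrix.SpecialLinearGroup (Fin n) (Polynomial A)) :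
    Matrix.GeneralLinearGroup.map (lmap f) (posGL n A a) =
      posGL n B (slm n f a) := by
  apply Units.ext
  ext1 p q
  exact RingHom.congr_fun (lmap_toLaurent f) _

theorem map_negGL {n : ℕ} (f : A →+* B) (a : Matrix.SpecialLinearGroup (Fin n) (Polynomial A)) :
    Matrix.GeneralLinearGroup.map (lmap f) (negGL n A a) =
      negGL n B (slm n f a) := by
  apply Units.ext
  ext1 p q
  change lmap f (invert (Polynomial.toLaurent ((a : Matrix (Fin n) (Fin n) (Polynomial A)) p q))) =
    invert (Polynomial.toLaurent (Polynomial.mapRingHom f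
      ((a : Matrix (Fin n) (Fin n) (Polynomial A)) p q)))
  rw [lmap_invert]
  exact congrArg _ (RingHom.congr_fun (lmap_toLaurent f) _)

theorem lmap_id (x : A[T;T⁻¹]) : lmap (RingHom.id A) x = x := by
  ext k
  simp [lmap]

theorem lmap_lmap {D : Type} [CommRing D] (f : A →+* B) (g : B →+* D) (x : A[T;T⁻¹]) :
    lmap g (lmap f x) = lmap (g.comp f) x := by
  ext k
  simp [lmap]

theorem GLmap_id {n : ℕ} (g : Matrix.GeneralLinearGroup (Fin n) A[T;T⁻¹]) :
    Matrix.GeneralLinearGroup.map (lmap (RingHom.id A)) g = g := by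
  apply Units.ext
  ext1 p q
  exact lmap_id _

theorem GLmap_comp {n : ℕ} {D : Type} [CommRing D] (f : A →+* B) (g : B →+* D)
    (x : Matrix.GeneralLinearGroup (Fin n) A[T;T⁻¹]) :
    Matrix.GeneralLinearGroup.map (lmap g) (Matrix.GeneralLinearGroup.map (lmap f) x) =
      Matrix.GeneralLinearGroup.map (lmap (g.comp f)) x := by
  apply Units.ext
  ext1 p q
  exact lmap_lmap f g _

theorem slm_id {n : ℕ} (a : Matrix.SpecialLinearGroup (Fin n) (Polynomial A)) :
    slm n (RingHom.id A) a = a := by
  apply Matrix.SpecialLinearGroup.ext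
  intro i j
  change Polynomial.mapRingHom (RingHom.id A) _ = _
  rw [Polynomial.mapRingHom_id]
  rfl

theorem slm_comp {n : ℕ} {D : Type} [CommRing D] (f : A →+* B) (g : B →+* D)
    (a : Matrix.SpecialLinearGroup (Fin n) (Polynomial A)) :
    slm n g (slm n f a) = slm n (g.comp f) a := by
  apply Matrix.SpecialLinearGroup.ext
  intro i j
  change Polynomial.mapRingHom g (Polynomial.mapRingHom f _) = Polynomial.mapRingHom (g.comp f) _
  rw [← Polynomial.mapRingHom_comp]
  rfl

end Vale.Agent.P286
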