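import Vale.Agent.P286.H527.Cplx

/-!
# Dévissage over a noetherian ring
-/

namespace Vale.Agent.P286

open CategoryTheory TensorProduct

variable {A : Type} [CommRing A]

namespace MCx

theorem HBij.of_equiv {C D : MCx A} (e : ∀ i, C.X i ≃ₗ[A] D.X i)
    (he : ∀ i j x, e j (C.d i j x) = D.d i j (e i x)) {θ : A} (h : C.HBij θ) : D.HBij θ := by
  have he' : ∀ i j x, (e j).symm (D.d i j x) = C.d i j ((e i).symm x) := by
    intro i j x
    rw [LinearEquiv.symm_apply_eq, he, LinearEquiv.apply_symm_apply]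
  constructor
  · rintro i j k hi hj z hz ⟨y, hy⟩
    obtain ⟨y', hy'⟩ := h.1 i j k hi hj ((e j).symm z) (by rw [← he', hz, map_zero])
      ⟨(e i).symm y, by rw [← he', hy, map_smul]⟩
    exact ⟨e i y', by rw [← he, hy', LinearEquiv.apply_symm_apply]⟩
  · intro i j k hi hj z hz
    obtain ⟨z', y, hz', hy⟩ := h.2 i j k hi hj ((e j).symm z) (by rw [← he', hz, map_zero])
    refine ⟨e j z', e i y, by rw [← he, hz', map_zero], ?_⟩
    have := congrArg (e j) hy
    rwa [LinearEquiv.apply_symm_apply, map_add, map_smul, he] at this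

/-- If `C''` is acyclic and `C → C` is multiplication by `θ`. -/
theorem hBij_of_mul {C C'' : MCx A} {θ : A} {α : ∀ i, C.X i →ₗ[A] C.X i}
    {β : ∀ i, C.X i →ₗ[A] C''.X i} (h : SES C C C'' α β) (hα : ∀ i x, α i x = θ • x)
    (hC : C''.Acyclic) : C.HBij θ := by
  constructor
  · rintro i j k hi hj z hz ⟨y, hy⟩
    exact (h.hIso hC i j k hi hj).1 z hz ⟨y, by rw [hy, hα]⟩
  · intro i j k hi hj z hz
    obtain ⟨z', y, hz', hzy⟩ := (h.hIso hC i j k hi hj).2 z hz
    exact ⟨z', y, hz', by rw [← hα]; exact hzy⟩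

theorem tens_acyclic_of_subsingleton (P : MCx A) (N : Type) [AddCommGroup N] [Module A N]
    [Subsingleton N] : (P.tens N).Acyclic := by
  intro i j k _ _ z _
  have : Subsingleton ((P.tens N).X j) :=
    inferInstanceAs (Subsingleton (N ⊗[A] P.X j))
  exact ⟨0, Subsingleton.elim _ _⟩

theorem quot_seq (I : Ideal A) (a : A) :
    ∃ (J : Ideal A), (∀ b, b ∈ J ↔ b * a ∈ I) ∧
    ∃ (u : (A ⧸ J) →ₗ[A] (A ⧸ I)) (v : (A ⧸ I) →ₗ[A] (A ⧸ (I ⊔ Ideal.span {a}))),
      Function.Injective u ∧ Function.Exact u v ∧ Function.Surjective v := by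
  let f : A →ₗ[A] (A ⧸ I) := LinearMap.toSpanSingleton A (A ⧸ I) (Submodule.Quotient.mk a)
  have hf : ∀ b, f b = Submodule.Quotient.mk (b * a) := by
    intro b
    simp only [f, LinearMap.toSpanSingleton_apply, ← Submodule.Quotient.mk_smul, smul_eq_mul]
  refine ⟨LinearMap.ker f, ?_, (LinearMap.ker f).liftQ f le_rfl,
    Submodule.factor (le_sup_left : I ≤ I ⊔ Ideal.span {a}), ?_, ?_, ?_⟩
  · intro b
    rw [LinearMap.mem_ker, hf, Submodule.Quotient.mk_eq_zero]
  · rw [← LinearMap.ker_eq_bot]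
    exact Submodule.ker_liftQ_eq_bot _ _ _ le_rfl
  · intro x
    obtain ⟨x, rfl⟩ := Submodule.Quotient.mk_surjective _ x
    constructor
    · intro hx
      have hx' : x ∈ I ⊔ Ideal.span {a} := by
        rw [← Submodule.Quotient.mk_eq_zero (I ⊔ Ideal.span {a})]
        exact hx
      obtain ⟨y, hy, w, hw, rfl⟩ := Submodule.mem_sup.1 hx'
      obtain ⟨r, rfl⟩ := Ideal.mem_span_singleton'.1 hw
      refine ⟨Submodule.Quotient.mk r, ?_⟩
      change f r = _
      rw [hf, eq_comm, Submodule.Quotient.eq]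
      simpa using hy
    · rintro ⟨y, hy⟩
      obtain ⟨y, rfl⟩ := Submodule.Quotient.mk_surjective _ y
      change f y = _ at hy
      rw [hf] at hy
      rw [← hy]
      change (Submodule.Quotient.mk (y * a) : A ⧸ (I ⊔ Ideal.span {a})) = 0
      rw [Submodule.Quotient.mk_eq_zero]
      exact Ideal.mul_mem_left _ _ (Submodule.mem_sup_right (Ideal.mem_span_singleton_self a))
  · intro x
    obtain ⟨x, rfl⟩ := Submodule.Quotient.mk_surjective _ x
    exact ⟨Submodule.Quotient.mk x, rfl⟩

theorem prime_seq (I : Ideal A) [hI : I.IsPrime] (a : A) (ha : a ∉ I) :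
    ∃ (v : (A ⧸ I) →ₗ[A] (A ⧸ (I ⊔ Ideal.span {a}))),
      Function.Injective (a • (LinearMap.id : (A ⧸ I) →ₗ[A] (A ⧸ I))) ∧
      Function.Exact (a • (LinearMap.id : (A ⧸ I) →ₗ[A] (A ⧸ I))) v ∧ Function.Surjective v := by
  refine ⟨Submodule.factor (le_sup_left : I ≤ I ⊔ Ideal.span {a}), ?_, ?_, ?_⟩
  · rw [← LinearMap.ker_eq_bot, LinearMap.ker_eq_bot']
    intro x hx
    obtain ⟨x, rfl⟩ := Submodule.Quotient.mk_surjective _ x
    have : (Submodule.Quotient.mk (a * x) : A ⧸ I) = 0 := hx
    rw [Submodule.Quotient.mk_eq_zero] at this ⊢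
    exact (hI.mem_or_mem this).resolve_left ha
  · intro x
    obtain ⟨x, rfl⟩ := Submodule.Quotient.mk_surjective _ x
    constructor
    · intro hx
      have hx' : x ∈ I ⊔ Ideal.span {a} := by
        rw [← Submodule.Quotient.mk_eq_zero (I ⊔ Ideal.span {a})]
        exact hx
      obtain ⟨y, hy, w, hw, rfl⟩ := Submodule.mem_sup.1 hx'
      obtain ⟨r, rfl⟩ := Ideal.mem_span_singleton'.1 hw
      refine ⟨Submodule.Quotient.mk r, ?_⟩
      change (Submodule.Quotient.mk (a * r) : A ⧸ I) = _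
      rw [eq_comm, Submodule.Quotient.eq]
      have : y + r * a - a * r = y := by ring
      rw [this]
      exact hy
    · rintro ⟨y, hy⟩
      obtain ⟨y, rfl⟩ := Submodule.Quotient.mk_surjective _ y
      change (Submodule.Quotient.mk (a * y) : A ⧸ I) = _ at hy
      rw [← hy]
      change (Submodule.Quotient.mk (a * y) : A ⧸ (I ⊔ Ideal.span {a})) = 0
      rw [Submodule.Quotient.mk_eq_zero]
      exact Ideal.mul_mem_right _ _ (Submodule.mem_sup_right (Ideal.mem_span_singleton_self a))
  · intro x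
    obtain ⟨x, rfl⟩ := Submodule.Quotient.mk_surjective _ x
    exact ⟨Submodule.Quotient.mk x, rfl⟩

/-- localization and multiplication -/
theorem acyclic_of_localized {P : MCx A} {M N : Type} [AddCommGroup M] [Module A M]
    [AddCommGroup N] [Module A N] {h : A} (u : M →ₗ[A] N)
    (hu : IsLocalizedModule (Submonoid.powers h) u) (hh : (P.tens M).HInj h)
    (hN : (P.tens N).Acyclic) : (P.tens M).Acyclic := by
  intro i j k hi hj z hz
  have loc : ∀ i, IsLocalizedModule (Submonoid.powers h)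
      (LinearMap.rTensor (P.X i) u) := fun i =>
    IsLocalizedModule.rTensor (R := A) (A := A) (Submonoid.powers h) (N := P.X i) u
  have comm : ∀ i j x, LinearMap.lTensor N (P.d i j) (LinearMap.rTensor (P.X i) u x) =
      LinearMap.rTensor (P.X j) u (LinearMap.lTensor M (P.d i j) x) := fun i j x =>
    (LinearMap.congr_fun ((LinearMap.rTensor_comp_lTensor _ u (P.d i j)).trans
    (LinearMap.lTensor_comp_rTensor _ u (P.d i j)).symm) x).symm
  have hz1 : (P.tens N).d j k (LinearMap.rTensor (P.X j) u z) = 0 := by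
    change LinearMap.lTensor N (P.d j k) (LinearMap.rTensor (P.X j) u z) = 0
    rw [comm]
    change LinearMap.rTensor (P.X k) u ((P.tens M).d j k z) = 0
    rw [hz, map_zero]
  obtain ⟨w, hw⟩ := hN i j k hi hj _ hz1
  obtain ⟨⟨w0, ⟨_, n, rfl⟩⟩, hw0⟩ := IsLocalizedModule.surj (Submonoid.powers h)
    (LinearMap.rTensor (P.X i) u) w
  have e1 : LinearMap.rTensor (P.X j) u (h ^ n • z) =
      LinearMap.rTensor (P.X j) u (LinearMap.lTensor M (P.d i j) w0) := by
    rw [← comm, ← hw0, map_smul]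
    change _ = LinearMap.lTensor N (P.d i j) (h ^ n • w)
    rw [map_smul]
    exact congrArg (h ^ n • ·) hw.symm
  obtain ⟨⟨_, m, rfl⟩, hm⟩ := (loc j).exists_of_eq e1
  have e2 : h ^ (m + n) • z = LinearMap.lTensor M (P.d i j) (h ^ m • w0) := by
    rw [map_smul, pow_add, mul_smul]
    exact hm
  exact HBij.pow_inj hh (m + n) i j k hi hj z hz ⟨h ^ m • w0, e2.symm⟩

theorem tens_zero_act (J : Ideal A) (b : A) (hb : b ∈ J) (Q : Type) [AddCommGroup Q] [Module A Q]
    (z : (A ⧸ J) ⊗[A] Q) : b • z = 0 := by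
  induction z using TensorProduct.induction_on with
  | zero => simp
  | tmul x y =>
    rw [TensorProduct.smul_tmul']
    have : b • x = 0 := by
      obtain ⟨x, rfl⟩ := Submodule.Quotient.mk_surjective _ x
      rw [← Submodule.Quotient.mk_smul, Submodule.Quotient.mk_eq_zero]
      exact Ideal.mul_mem_right _ _ hb
    rw [this, TensorProduct.zero_tmul]
  | add x y hx hy => rw [smul_add, hx, hy, add_zero]

theorem hBij_of_primes [IsNoetherianRing A] (P : MCx A) (hP : ∀ i, Module.Flat A (P.X i)) (θ : A)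
    (H : ∀ p : Ideal A, p.IsPrime → θ ∈ p → ∃ h : A, h ∉ p ∧
      ∃ (N : Type) (_ : AddCommGroup N) (_ : Module A N) (u : (A ⧸ p) →ₗ[A] N),
        IsLocalizedModule (Submonoid.powers h) u ∧ (P.tens N).Acyclic) :
    P.HBij θ := by
  have key : ∀ I : Ideal A, (P.tens (A ⧸ I)).HBij θ := by
    intro I
    induction I using IsNoetherian.induction with
    | hgt I ih =>
    change (P.tens (A ⧸ (I : Ideal A))).HBij θ
    have zero_act : ∀ (J : Ideal A) (b : A), b ∈ J → ∀ i (z : (P.tens (A ⧸ J)).X i), b • z = 0 :=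
      fun J b hb i z => tens_zero_act J b hb (P.X i) z
    by_cases hI : Ideal.IsPrime (I : Ideal A)
    · have acyc : ∀ a : A, a ∉ I → θ ∈ I ⊔ Ideal.span {a} →
          (P.tens (A ⧸ (I ⊔ Ideal.span {a}))).Acyclic := by
        intro a ha hθ
        refine (ih (I ⊔ Ideal.span {a}) ?_).acyclic (zero_act _ θ hθ)
        refine lt_of_le_of_ne le_sup_left fun h => ha ?_
        rw [h]
        exact Submodule.mem_sup_right (Ideal.mem_span_singleton_self a)
      have mulb : ∀ a : A, a ∉ I → θ ∈ I ⊔ Ideal.span {a} → (P.tens (A ⧸ I)).HBij a := by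
        intro a ha hθ
        obtain ⟨v, hu, huv, hv⟩ := prime_seq I a ha
        refine hBij_of_mul (SES.tens hP _ v hu huv hv) (fun i x => ?_) (acyc a ha hθ)
        rw [LinearMap.rTensor_smul, LinearMap.rTensor_id]
        rfl
      by_cases hθ : θ ∈ I
      · obtain ⟨h, hh, N, _, _, u, hu, hN⟩ := H I hI hθ
        exact (acyclic_of_localized u hu (mulb h hh (Submodule.mem_sup_left hθ)).1 hN).hBij θ
      · exact mulb θ hθ (Submodule.mem_sup_right (Ideal.mem_span_singleton_self θ))
    · by_cases hT : I = ⊤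
      · subst hT
        have : Subsingleton (A ⧸ (⊤ : Ideal A)) := Ideal.Quotient.subsingleton_iff.2 rfl
        exact (tens_acyclic_of_subsingleton P _).hBij θ
      · rw [Ideal.isPrime_iff] at hI
        push Not at hI
        obtain ⟨a, b, hab, ha, hb⟩ := hI hT
        obtain ⟨J, hJ, u, v, hu, huv, hv⟩ := quot_seq I b
        refine (SES.tens hP u v hu huv hv).hBij (ih J ?_) (ih _ ?_)
        · refine lt_of_le_of_ne (fun x hx => (hJ x).2 (Ideal.mul_mem_right _ _ hx)) fun h => ha ?_
          rw [h]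
          exact (hJ a).2 hab
        · refine lt_of_le_of_ne le_sup_left fun h => hb ?_
          rw [h]
          exact Submodule.mem_sup_right (Ideal.mem_span_singleton_self b)
  refine (key ⊥).of_equiv (fun i => (LinearEquiv.rTensor (P.X i)
    (Submodule.quotEquivOfEqBot (⊥ : Ideal A) rfl)).trans (TensorProduct.lid A (P.X i))) ?_
  intro i j x
  change TensorProduct.lid A (P.X j) (LinearMap.rTensor (P.X j) _ (LinearMap.lTensor _ (P.d i j) x)) =
    P.d i j (TensorProduct.lid A (P.X i) (LinearMap.rTensor (P.X i) _ x))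
  induction x using TensorProduct.induction_on with
  | zero => simp
  | tmul x y => simp
  | add x y hx hy => simp only [map_add, hx, hy]

end MCx

end Vale.Agent.P286
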