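import Vale.Agent.P286.Defs
import Vale.Agent.P286.H527.Loc

/-!
# The theta function and the open locus of trivial bundles
-/

namespace Vale.Agent.P286

open CategoryTheory LaurentPolynomial

noncomputable section

variable {n d : ℕ}

theorem ring_aux₄ {E : Type*} [Ring E] (t s r : E) (h : s * r = 1) :
    t * r - 1 = (-(s - t)) * r := by
  rw [neg_sub, sub_mul, h]

theorem toepPos_val {A : Type} [CommRing A] (a : Matrix.SpecialLinearGroup (Fin n) (Polynomial A)) :
    (toepPos n A a : Module.End A (Ix n →₀ A)) = toep (posGL n A a) := rfl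

theorem toepNeg_val {A : Type} [CommRing A] (a : Matrix.SpecialLinearGroup (Fin n) (Polynomial A)) :
    (toepNeg n A a : Module.End A (Ix n →₀ A)) = toep (negGL n A a) := rfl

/-- `θ(g, S) = fdet (toep g * S⁻¹)` -/
def theta {A : Type} [CommRing A] (g : Matrix.GeneralLinearGroup (Fin n) A[T;T⁻¹])
    (S : (Module.End A (Ix n →₀ A))ˣ) : A :=
  fdet (toep g * ((S⁻¹ : (Module.End A (Ix n →₀ A))ˣ) : Module.End A (Ix n →₀ A)))

theorem theta_finRank {A : Type} [CommRing A] {g : Matrix.GeneralLinearGroup (Fin n) A[T;T⁻¹]}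
    {S : (Module.End A (Ix n →₀ A))ˣ} (h : IsFraming g S) :
    FinRank (toep g * ((S⁻¹ : (Module.End A (Ix n →₀ A))ˣ) : Module.End A (Ix n →₀ A)) - 1) := by
  have e : toep g * ((S⁻¹ : (Module.End A (Ix n →₀ A))ˣ) : Module.End A (Ix n →₀ A)) - 1 =
      (-((S : Module.End A (Ix n →₀ A)) - toep g)) *
        ((S⁻¹ : (Module.End A (Ix n →₀ A))ˣ) : Module.End A (Ix n →₀ A)) := by
    have := Units.mul_inv S
    exact ring_aux₄ (toep g) (S : Module.End A (Ix n →₀ A)) _ this
  rw [e]
  exact h.neg.mul_right _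

theorem ring_aux₅ {E : Type*} [Ring E] (P P' N t s s' r : E) (h : P' * P = 1) (h' : s' * s = 1) :
    P * (t * N) * r = (P * (t * s') * P') * (P * s * N * r) := by
  simp only [mul_assoc]
  rw [← mul_assoc P' P, h, one_mul, ← mul_assoc s' s, h', one_mul]

theorem theta_transport {A B : Type} [CommRing A] [CommRing B] (f : A →+* B)
    {a b : Matrix.SpecialLinearGroup (Fin n) (Polynomial B)}
    {g : Matrix.GeneralLinearGroup (Fin n) A[T;T⁻¹]}
    {g' : Matrix.GeneralLinearGroup (Fin n) B[T;T⁻¹]}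
    (e : g' * negGL n B b = posGL n B a * Matrix.GeneralLinearGroup.map (lmap f) g)
    {S : (Module.End A (Ix n →₀ A))ˣ} {S' : (Module.End B (Ix n →₀ B))ˣ}
    (h : IsFraming g S) (h' : IsFraming g' S') :
    theta g' S' = fdet ((transport f a b S * S'⁻¹ : (Module.End B (Ix n →₀ B))ˣ) :
      Module.End B (Ix n →₀ B)) * f (theta g S) := by
  have e1 : g' = posGL n B a * (Matrix.GeneralLinearGroup.map (lmap f) g * negGL n B b⁻¹) := by
    rw [← mul_assoc, ← e, mul_assoc, ← map_mul, mul_inv_cancel, map_one, mul_one]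
  have e2 : toep g' * ((S'⁻¹ : (Module.End B (Ix n →₀ B))ˣ) : Module.End B (Ix n →₀ B)) =
      ((toepPos n B a : Module.End B (Ix n →₀ B)) *
        bc f (toep g * ((S⁻¹ : (Module.End A (Ix n →₀ A))ˣ) : Module.End A (Ix n →₀ A))) *
        (((toepPos n B a)⁻¹ : (Module.End B (Ix n →₀ B))ˣ) : Module.End B (Ix n →₀ B))) *
      ((transport f a b S * S'⁻¹ : (Module.End B (Ix n →₀ B))ˣ) : Module.End B (Ix n →₀ B)) := by
    rw [e1, toep_pos_mul, toep_mul_neg, ← bc_toep, bc_mul]
    have h1 : bc f ((S⁻¹ : (Module.End A (Ix n →₀ A))ˣ) : Module.End A (Ix n →₀ A)) *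
        bc f (S : Module.End A (Ix n →₀ A)) = 1 := by
      rw [← bc_mul, Units.inv_mul, bc_one]
    have h3 : ((transport f a b S * S'⁻¹ : (Module.End B (Ix n →₀ B))ˣ) :
        Module.End B (Ix n →₀ B)) = toep (posGL n B a) * bc f (S : Module.End A (Ix n →₀ A)) *
          toep (negGL n B b⁻¹) * ((S'⁻¹ : (Module.End B (Ix n →₀ B))ˣ) :
            Module.End B (Ix n →₀ B)) := by
      rw [transport, ← map_inv]
      rfl
    rw [h3]
    exact ring_aux₅ (toep (posGL n B a)) _ (toep (negGL n B b⁻¹)) (bc f (toep g))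
      (bc f (S : Module.End A (Ix n →₀ A))) _ _ (Units.inv_mul (toepPos n B a)) h1
  have hb := FinRank.bc_sub_one f (theta_finRank h)
  have hc : FinRank (((toepPos n B a : Module.End B (Ix n →₀ B)) *
        bc f (toep g * ((S⁻¹ : (Module.End A (Ix n →₀ A))ˣ) : Module.End A (Ix n →₀ A))) *
        (((toepPos n B a)⁻¹ : (Module.End B (Ix n →₀ B))ˣ) : Module.End B (Ix n →₀ B))) - 1) := by
    rw [ring_aux₃ (toepPos n B a : Module.End B (Ix n →₀ B))
        (((toepPos n B a)⁻¹ : (Module.End B (Ix n →₀ B))ˣ) : Module.End B (Ix n →₀ B))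
        (bc f (toep g * ((S⁻¹ : (Module.End A (Ix n →₀ A))ˣ) : Module.End A (Ix n →₀ A))))
        (Units.mul_inv (toepPos n B a))]
    exact (hb.mul_left _).mul_right _
  unfold theta
  rw [e2, fdet_mul hc ((h.transport f e).div h'), fdet_conj _ hb, fdet_bc f (theta_finRank h),
    mul_comm]

namespace BunObj

/-- the theta function of a test object -/
def th (X : BunObj n d) : X.A.R := theta X.g X.S

theorem th_map {X Y : BunObj n d} (φ : BunHom X Y) :
    Y.th = (φ.dl : Y.A.R) * φ.f X.th :=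
  theta_transport (φ.f : X.A.R →+* Y.A.R) φ.eq X.framing Y.framing

end BunObj

end

end Vale.Agent.P286
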