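import Vale.Agent.P286.H527.Gm
import Vale.Agent.P286.H527.Euler
import Vale.Agent.P286.H527.Theta
import Vale.Agent.P286.H211.Torus
import Vale.Agent.P286.H211.Fact2

/-!
# Base change of test objects; the action of the torus at a split bundle
-/

namespace Vale.Agent.P286

open CategoryTheory LaurentPolynomial

noncomputable section

variable {n d : ℕ}

theorem IsFraming.bc {A B : Type} [CommRing A] [CommRing B] (f : A →+* B)
    {g : Matrix.GeneralLinearGroup (Fin n) A[T;T⁻¹]} {S : (Module.End A (Ix n →₀ A))ˣ}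
    (h : IsFraming g S) : IsFraming (Matrix.GeneralLinearGroup.map (lmap f) g) (bcU n f S) := by
  have h2 := FinRank.bc f h
  rw [bc_sub, bc_toep] at h2
  exact h2

/-- Base change of a test object. -/
abbrev BunObj.pull (X : BunObj n d) (B : SmAlg) (f : X.A.R →ₐ[ℂ] B.R) : BunObj n d where
  A := B
  g := Matrix.GeneralLinearGroup.map (lmap (f : X.A.R →+* B.R)) X.g
  det_g := by
    obtain ⟨k, hk, hg⟩ := X.det_g
    exact ⟨k, hk, det_GLmap _ _ hg⟩
  S := bcU n (f : X.A.R →+* B.R) X.S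
  framing := X.framing.bc _

/-- The canonical morphism to the base change. -/
def BunObj.pullHom (X : BunObj n d) (B : SmAlg) (f : X.A.R →ₐ[ℂ] B.R) : X ⟶ X.pull B f :=
  ({ f := f
     a := 1
     b := 1
     glue := by
      unfold Glue
      rw [map_one, map_one, one_mul, mul_one] } : BunHom X (X.pull B f))

theorem transport_one {A B : Type} [CommRing A] [CommRing B] (f : A →+* B)
    (S : (Module.End A (Ix n →₀ A))ˣ) : transport f 1 1 S = bcU n f S := by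
  rw [transport, map_one, map_one, inv_one, one_mul, mul_one]

theorem transport_id {B : Type} [CommRing B]
    (a b : Matrix.SpecialLinearGroup (Fin n) (Polynomial B)) (S : (Module.End B (Ix n →₀ B))ˣ) :
    transport (RingHom.id B) a b S = toepPos n B a * S * (toepNeg n B b)⁻¹ := by
  rw [transport, bcU_id]

theorem BunObj.pullHom_dl (X : BunObj n d) (B : SmAlg) (f : X.A.R →ₐ[ℂ] B.R) :
    (Bun n d).dl (X.pullHom B f) = 1 := by
  apply Units.ext
  change fdet ((transport (f : X.A.R →+* B.R) 1 1 X.S * (bcU n (f : X.A.R →+* B.R) X.S)⁻¹ :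
      (Module.End B.R (Ix n →₀ B.R))ˣ) : Module.End B.R (Ix n →₀ B.R)) = 1
  rw [transport_one, mul_inv_cancel, Units.val_one, fdet_one]

/-- The ring of Laurent polynomials over a smooth algebra. -/
abbrev SmAlg.laurent (A : SmAlg) : SmAlg := ⟨(A.R)[T;T⁻¹]⟩

/-- `X × G_m` -/
abbrev BunObj.gm (X : BunObj n d) : BunObj n d := X.pull X.A.laurent (Calg X.A.R)

/-- The automorphism of `X × G_m` defined by a matrix `t ∈ SL_n(A[T,T⁻¹])`. -/
def gmSigma (X : BunObj n d) (t : Matrix.SpecialLinearGroup (Fin n) (X.A.R)[T;T⁻¹])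
    (ht : Matrix.GeneralLinearGroup.map (lmap (LaurentPolynomial.C : X.A.R →+* (X.A.R)[T;T⁻¹])) X.g *
        negGL n (X.A.R)[T;T⁻¹] (constSL n (X.A.R)[T;T⁻¹] t) =
      posGL n (X.A.R)[T;T⁻¹] (constSL n (X.A.R)[T;T⁻¹] t) *
        Matrix.GeneralLinearGroup.map (lmap (LaurentPolynomial.C : X.A.R →+* (X.A.R)[T;T⁻¹])) X.g) :
    X.gm ⟶ X.gm :=
  ({ f := AlgHom.id ℂ (X.A.R)[T;T⁻¹]
     a := constSL n (X.A.R)[T;T⁻¹] t
     b := constSL n (X.A.R)[T;T⁻¹] t
     glue := by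
      refine ht.trans ?_
      congr 1
      exact (GLmap_id _).symm } : BunHom X.gm X.gm)

theorem gmSigma_dl (X : BunObj n d) (t : Matrix.SpecialLinearGroup (Fin n) (X.A.R)[T;T⁻¹])
    (ht : Matrix.GeneralLinearGroup.map (lmap (LaurentPolynomial.C : X.A.R →+* (X.A.R)[T;T⁻¹])) X.g *
        negGL n (X.A.R)[T;T⁻¹] (constSL n (X.A.R)[T;T⁻¹] t) =
      posGL n (X.A.R)[T;T⁻¹] (constSL n (X.A.R)[T;T⁻¹] t) *
        Matrix.GeneralLinearGroup.map (lmap (LaurentPolynomial.C : X.A.R →+* (X.A.R)[T;T⁻¹])) X.g) :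
    (((Bun n d).dl (gmSigma X t ht) : ((X.A.R)[T;T⁻¹])ˣ) : (X.A.R)[T;T⁻¹]) =
      fdet (toep (posGL n (X.A.R)[T;T⁻¹] (constSL n (X.A.R)[T;T⁻¹] t)) *
          bc (LaurentPolynomial.C) (X.S : Module.End X.A.R (Ix n →₀ X.A.R)) *
          toep (negGL n (X.A.R)[T;T⁻¹] (constSL n (X.A.R)[T;T⁻¹] t)⁻¹) *
          (((Units.map (bcHom (Ix n) (LaurentPolynomial.C : X.A.R →+* (X.A.R)[T;T⁻¹])) X.S)⁻¹ :
            (Module.End (X.A.R)[T;T⁻¹] (Ix n →₀ (X.A.R)[T;T⁻¹]))ˣ) :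
              Module.End (X.A.R)[T;T⁻¹] (Ix n →₀ (X.A.R)[T;T⁻¹]))) := by
  change fdet ((transport (RingHom.id (X.A.R)[T;T⁻¹]) (constSL n (X.A.R)[T;T⁻¹] t)
        (constSL n (X.A.R)[T;T⁻¹] t) (bcU n (LaurentPolynomial.C : X.A.R →+* (X.A.R)[T;T⁻¹]) X.S) *
        (bcU n (LaurentPolynomial.C : X.A.R →+* (X.A.R)[T;T⁻¹]) X.S)⁻¹ :
          (Module.End (X.A.R)[T;T⁻¹] (Ix n →₀ (X.A.R)[T;T⁻¹]))ˣ) :
            Module.End (X.A.R)[T;T⁻¹] (Ix n →₀ (X.A.R)[T;T⁻¹])) = _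
  rw [transport_id, ← map_inv (toepNeg n (X.A.R)[T;T⁻¹])]
  rfl

/-- The one-parameter group of automorphisms defined by a matrix `t ∈ SL_n(A[T,T⁻¹])`. -/
def gmData (X : BunObj n d) (t : Matrix.SpecialLinearGroup (Fin n) (X.A.R)[T;T⁻¹])
    (ht : Matrix.GeneralLinearGroup.map (lmap (LaurentPolynomial.C : X.A.R →+* (X.A.R)[T;T⁻¹])) X.g *
        negGL n (X.A.R)[T;T⁻¹] (constSL n (X.A.R)[T;T⁻¹] t) =
      posGL n (X.A.R)[T;T⁻¹] (constSL n (X.A.R)[T;T⁻¹] t) *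
        Matrix.GeneralLinearGroup.map (lmap (LaurentPolynomial.C : X.A.R →+* (X.A.R)[T;T⁻¹])) X.g)
    (m : ℤ)
    (hm : (((Bun n d).dl (gmSigma X t ht) : ((X.A.R)[T;T⁻¹])ˣ) : (X.A.R)[T;T⁻¹]) = T m) :
    GmData (Bun n d) X X.gm where
  ι := X.pullHom X.A.laurent (Calg X.A.R)
  e k := (T k : (X.A.R)[T;T⁻¹])
  E := laurentEquiv X.A.R
  hE k := laurentEquiv_single X.A.R k
  e_zero := T_zero
  v := eulerD X.A.R
  v_res a := eulerD_C X.A.R a
  v_e k := eulerD_T X.A.R k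
  v_dl := by
    rw [BunObj.pullHom_dl, Units.val_one]
    exact Derivation.map_one_eq_zero (eulerD X.A.R)
  σ := gmSigma X t ht
  res_σ := rfl
  c := m
  v_dlσ := by
    have h := eulerD_T X.A.R m
    rw [hm, map_intCast]
    exact h

theorem gmSigma_comp (X : BunObj n d) (t t' : Matrix.SpecialLinearGroup (Fin n) (X.A.R)[T;T⁻¹])
    (ht) (ht') (htt : t' * t = 1) :
    gmSigma X t ht ≫ gmSigma X t' ht' = 𝟙 X.gm := by
  have h : constSL n (X.A.R)[T;T⁻¹] t' * slm n (RingHom.id (X.A.R)[T;T⁻¹])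
      (constSL n (X.A.R)[T;T⁻¹] t) = 1 := by
    rw [slm_id, ← map_mul, htt, map_one]
  apply BunHom.ext
  · rfl
  · exact h
  · exact h

/-- Equivariance for a torus without resonance forces acyclicity. -/
theorem acyclic_of_torus {s : ℂ} {K : TCx (Bun n d) s} (hK : Cartesian K) (X : BunObj n d)
    (t : Matrix.SpecialLinearGroup (Fin n) (X.A.R)[T;T⁻¹])
    (ht : Matrix.GeneralLinearGroup.map (lmap (LaurentPolynomial.C : X.A.R →+* (X.A.R)[T;T⁻¹])) X.g *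
        negGL n (X.A.R)[T;T⁻¹] (constSL n (X.A.R)[T;T⁻¹] t) =
      posGL n (X.A.R)[T;T⁻¹] (constSL n (X.A.R)[T;T⁻¹] t) *
        Matrix.GeneralLinearGroup.map (lmap (LaurentPolynomial.C : X.A.R →+* (X.A.R)[T;T⁻¹])) X.g)
    (m : ℤ)
    (hm : (((Bun n d).dl (gmSigma X t ht) : ((X.A.R)[T;T⁻¹])ˣ) : (X.A.R)[T;T⁻¹]) = T m)
    (hs : ∀ k : ℤ, (k : ℂ) + s * m ≠ 0) (j : ℤ) (z : K.obj j X) (hz : K.Cyc X j z) :
    K.Bd X j z := by
  have ht' : Matrix.GeneralLinearGroup.map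
      (lmap (LaurentPolynomial.C : X.A.R →+* (X.A.R)[T;T⁻¹])) X.g *
        negGL n (X.A.R)[T;T⁻¹] (constSL n (X.A.R)[T;T⁻¹] t⁻¹) =
      posGL n (X.A.R)[T;T⁻¹] (constSL n (X.A.R)[T;T⁻¹] t⁻¹) *
        Matrix.GeneralLinearGroup.map
          (lmap (LaurentPolynomial.C : X.A.R →+* (X.A.R)[T;T⁻¹])) X.g := by
    rw [map_inv, map_inv, map_inv, mul_inv_eq_iff_eq_mul, mul_assoc, ht, inv_mul_cancel_left]
  exact (gmData X t ht m hm).acyclic hK (gmSigma X t⁻¹ ht')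
    (gmSigma_comp X t t⁻¹ ht ht' (inv_mul_cancel t)) hs j z hz

theorem map_monoGL {A B : Type} [CommRing A] [CommRing B] (f : A →+* B) (lam : Fin n → ℤ) :
    Matrix.GeneralLinearGroup.map (lmap f) (monoGL A lam) = monoGL B lam := by
  apply Units.ext
  ext1 i j
  change lmap f ((Matrix.diagonal fun i => (T (lam i) : A[T;T⁻¹])) i j) =
    (Matrix.diagonal fun i => (T (lam i) : B[T;T⁻¹])) i j
  rw [Matrix.diagonal_apply, Matrix.diagonal_apply]
  split_ifs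
  · rw [lmap_T]
  · rw [map_zero]

theorem monoGL_diag (R : Type) [CommRing R] (lam : Fin n → ℤ)
    (t : Matrix.SpecialLinearGroup (Fin n) R) (c : Fin n → R)
    (ht : (t : Matrix (Fin n) (Fin n) R) = Matrix.diagonal c) :
    monoGL R lam * negGL n R (constSL n R t) = posGL n R (constSL n R t) * monoGL R lam := by
  rw [negGL_constSL]
  apply Units.ext
  rw [Units.val_mul, Units.val_mul, posGL_constSL, ht, Matrix.diagonal_map (map_zero _)]
  have h2 : ((monoGL R lam : Matrix.GeneralLinearGroup (Fin n) R[T;T⁻¹]) :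
      Matrix (Fin n) (Fin n) R[T;T⁻¹]) = Matrix.diagonal fun i => T (lam i) := rfl
  rw [h2, Matrix.diagonal_mul_diagonal, Matrix.diagonal_mul_diagonal]
  congr 1
  ext1 i
  exact mul_comm _ _

theorem monoGL_tor (A : Type) [CommRing A] (lam mu : Fin n → ℤ) (hmu : ∑ i, mu i = 0) :
    monoGL A[T;T⁻¹] lam * negGL n A[T;T⁻¹] (constSL n A[T;T⁻¹] (tor A mu hmu)) =
      posGL n A[T;T⁻¹] (constSL n A[T;T⁻¹] (tor A mu hmu)) * monoGL A[T;T⁻¹] lam :=
  monoGL_diag A[T;T⁻¹] lam (tor A mu hmu) (fun i => T (mu i)) rfl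

/-- A cartesian complex is acyclic at a nontrivial split bundle, if the twist is irrational. -/
theorem acyclic_split {s : ℂ} (hs : ∀ m : ℤ, m ≠ 0 → ∀ k : ℤ, (k : ℂ) + s * m ≠ 0)
    {K : TCx (Bun n d) s} (hK : Cartesian K) (X : BunObj n d) (lam : Fin n → ℤ)
    (hlam : ∃ i j, lam i ≠ lam j) (hX : X.g = monoGL X.A.R lam) (j : ℤ) (z : K.obj j X)
    (hz : K.Cyc X j z) : K.Bd X j z := by
  obtain ⟨mu, hmu, m, hm, H⟩ := torus_weight lam hlam
  have hX' : Matrix.GeneralLinearGroup.map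
      (lmap (LaurentPolynomial.C : X.A.R →+* (X.A.R)[T;T⁻¹])) X.g =
      monoGL (X.A.R)[T;T⁻¹] lam := by
    rw [hX, map_monoGL]
  have ht : Matrix.GeneralLinearGroup.map
      (lmap (LaurentPolynomial.C : X.A.R →+* (X.A.R)[T;T⁻¹])) X.g *
        negGL n (X.A.R)[T;T⁻¹] (constSL n (X.A.R)[T;T⁻¹] (tor X.A.R mu hmu)) =
      posGL n (X.A.R)[T;T⁻¹] (constSL n (X.A.R)[T;T⁻¹] (tor X.A.R mu hmu)) *
        Matrix.GeneralLinearGroup.map
          (lmap (LaurentPolynomial.C : X.A.R →+* (X.A.R)[T;T⁻¹])) X.g := by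
    rw [hX']
    exact monoGL_tor X.A.R lam mu hmu
  refine acyclic_of_torus hK X (tor X.A.R mu hmu) ht m ?_ (hs m hm) j z hz
  rw [gmSigma_dl]
  have hfr := X.framing
  rw [hX] at hfr
  exact H X.A.R X.S hfr

end

end Vale.Agent.P286
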