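import Mathlib

/-!
# Generic smoothness over `ℂ`
-/

namespace Vale.Agent.P286

/-- A domain of finite type over `ℂ` is smooth after inverting a suitable multiple of a given nonzero
element. -/
theorem exists_smooth_loc {D : Type} [CommRing D] [IsDomain D] [Algebra ℂ D]
    [Algebra.FiniteType ℂ D] (h₂ : D) (hh : h₂ ≠ 0) :
    ∃ h₁ : D, h₂ * h₁ ≠ 0 ∧ Algebra.Smooth ℂ (Localization.Away (h₂ * h₁)) := by
  have : Algebra.FinitePresentation ℂ D := Algebra.FinitePresentation.of_finiteType.1 inferInstance
  have h0 : (⊥ : Ideal D).IsPrime := Ideal.isPrime_bot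
  have : Algebra.EssFiniteType ℂ (FractionRing D) := by
    have : Algebra.EssFiniteType D (FractionRing D) :=
      .of_isLocalization _ (nonZeroDivisors D)
    exact .comp ℂ D (FractionRing D)
  have hF : Algebra.FormallySmooth ℂ (FractionRing D) := inferInstance
  have e0 : (⊥ : Ideal D).primeCompl = nonZeroDivisors D := by
    ext x
    rw [Ideal.mem_primeCompl_iff, Ideal.mem_bot, mem_nonZeroDivisors_iff_ne_zero]
  have : IsLocalization (nonZeroDivisors D) (Localization.AtPrime (⊥ : Ideal D)) := by
    rw [← e0]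
    infer_instance
  have hsm : Algebra.IsSmoothAt ℂ (⊥ : Ideal D) :=
    Algebra.FormallySmooth.of_equiv
      ((IsLocalization.algEquiv (nonZeroDivisors D) (FractionRing D)
        (Localization.AtPrime (⊥ : Ideal D))).restrictScalars ℂ)
  obtain ⟨h₁, h1, h2⟩ := Algebra.IsSmoothAt.exists_notMem_smooth ℂ (⊥ : Ideal D)
  refine ⟨h₁, mul_ne_zero hh (by simpa using h1), ?_⟩
  rw [← Algebra.basicOpen_subset_smoothLocus_iff_smooth] at h2 ⊢
  refine subset_trans ?_ h2
  rw [PrimeSpectrum.basicOpen_mul]
  exact Set.inter_subset_right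

end Vale.Agent.P286
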