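import Vale.Agent.P286.H527.Eps
import Vale.Agent.P286.H527.Pull
import Vale.Agent.P286.H527.HIsoL
import Vale.Agent.P286.H527.Smth

/-!
# Split test objects over the points of the locus `θ = 0`
-/

namespace Vale.Agent.P286

open CategoryTheory LaurentPolynomial

noncomputable section

variable {n d : ℕ}

theorem det_posGL {B : Type} [CommRing B] (a : Matrix.SpecialLinearGroup (Fin n) (Polynomial B)) :
    ((posGL n B a : Matrix.GeneralLinearGroup (Fin n) B[T;T⁻¹]) :
      Matrix (Fin n) (Fin n) B[T;T⁻¹]).det = 1 := by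
  change ((Polynomial.toLaurent (R := B)).mapMatrix
    (a : Matrix (Fin n) (Fin n) (Polynomial B))).det = 1
  rw [← RingHom.map_det, a.2, map_one]

theorem det_negGL {B : Type} [CommRing B] (a : Matrix.SpecialLinearGroup (Fin n) (Polynomial B)) :
    ((negGL n B a : Matrix.GeneralLinearGroup (Fin n) B[T;T⁻¹]) :
      Matrix (Fin n) (Fin n) B[T;T⁻¹]).det = 1 := by
  change ((((invert (R := B)).toRingEquiv.toRingHom.comp
    (Polynomial.toLaurent (R := B)))).mapMatrix
    (a : Matrix (Fin n) (Fin n) (Polynomial B))).det = 1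
  rw [← RingHom.map_det, a.2, map_one]

theorem theta_bc {A B : Type} [CommRing A] [CommRing B] (f : A →+* B)
    {g : Matrix.GeneralLinearGroup (Fin n) A[T;T⁻¹]} {S : (Module.End A (Ix n →₀ A))ˣ}
    (h : IsFraming g S) :
    theta (Matrix.GeneralLinearGroup.map (lmap f) g) (bcU n f S) = f (theta g S) := by
  have h1 := fdet_bc f (theta_finRank h)
  rw [bc_mul, bc_toep] at h1
  exact h1

/-- An algebra homomorphism `D → B` which is a localization defines a localization of
`A`-modules for a surjection `A → D`. -/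
theorem isLocalizedModule_of_isLocalization {A D B : Type} [CommRing A] [CommRing D] [CommRing B]
    [Algebra D B] (π : A →+* D) (h : A) [Module A D] [Module A B]
    (hD : ∀ (a : A) (x : D), a • x = π a * x)
    (hB : ∀ (a : A) (x : B), a • x = algebraMap D B (π a) * x)
    [IsLocalization.Away (π h) B] (u : D →ₗ[A] B) (hu : ∀ x, u x = algebraMap D B x) :
    IsLocalizedModule (Submonoid.powers h) u where
  map_units := by
    rintro ⟨_, m, rfl⟩
    have hunit : IsUnit (algebraMap D B (π (h ^ m))) := by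
      rw [map_pow, map_pow]
      exact (IsLocalization.Away.algebraMap_isUnit (π h)).pow m
    rw [Module.End.isUnit_iff]
    constructor
    · intro x y hxy
      have h1 : (h ^ m) • x = (h ^ m) • y := hxy
      rw [hB, hB] at h1
      exact hunit.mul_left_cancel h1
    · intro y
      obtain ⟨c, hc⟩ := hunit
      refine ⟨((c⁻¹ : Bˣ) : B) * y, ?_⟩
      change (h ^ m) • (((c⁻¹ : Bˣ) : B) * y) = y
      rw [hB, ← hc, Units.mul_inv_cancel_left]
  surj := by
    intro y
    obtain ⟨⟨x, ⟨_, m, rfl⟩⟩, hx⟩ := IsLocalization.surj (Submonoid.powers (π h)) y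
    refine ⟨⟨x, ⟨h ^ m, m, rfl⟩⟩, ?_⟩
    change (h ^ m) • y = u x
    rw [hB, hu, map_pow, mul_comm]
    exact hx
  exists_of_eq := by
    intro x y hxy
    rw [hu, hu] at hxy
    obtain ⟨⟨_, m, rfl⟩, hc⟩ := (IsLocalization.eq_iff_exists (Submonoid.powers (π h)) B).1 hxy
    refine ⟨⟨h ^ m, m, rfl⟩, ?_⟩
    change (h ^ m) • x = (h ^ m) • y
    rw [hD, hD, map_pow]
    exact hc

theorem split_localize {D : Type} [CommRing D] (h₂ h₁ : D)
    (g : Matrix.GeneralLinearGroup (Fin n) D[T;T⁻¹]) (lam : Fin n → ℤ)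
    (a b : Matrix.SpecialLinearGroup (Fin n) (Polynomial (Localization.Away h₂)))
    (hab : Matrix.GeneralLinearGroup.map (lmap (algebraMap D (Localization.Away h₂))) g *
          negGL n (Localization.Away h₂) b =
        posGL n (Localization.Away h₂) a * monoGL (Localization.Away h₂) lam)
    (B : Type) [CommRing B] [Algebra D B] [IsLocalization.Away (h₂ * h₁) B] :
    ∃ a b : Matrix.SpecialLinearGroup (Fin n) (Polynomial B),
      Matrix.GeneralLinearGroup.map (lmap (algebraMap D B)) g * negGL n B b =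
        posGL n B a * monoGL B lam := by
  have hu : IsUnit (algebraMap D B h₂) := by
    have h1 : IsUnit (algebraMap D B (h₂ * h₁)) :=
      IsLocalization.Away.algebraMap_isUnit (h₂ * h₁)
    rw [map_mul] at h1
    exact isUnit_of_mul_isUnit_left h1
  have hκ : (IsLocalization.Away.lift h₂ hu : Localization.Away h₂ →+* B).comp
      (algebraMap D (Localization.Away h₂)) = algebraMap D B :=
    IsLocalization.Away.lift_comp h₂ hu
  have hab' := congrArg (Matrix.GeneralLinearGroup.map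
    (lmap (IsLocalization.Away.lift h₂ hu : Localization.Away h₂ →+* B))) hab
  rw [map_mul, map_mul, map_negGL, map_posGL, map_monoGL, GLmap_comp, hκ] at hab'
  exact ⟨_, _, hab'⟩

theorem exists_test_aux (X : BunObj n d) (p : Ideal X.A.R) (B : Type) [CommRing B] [Algebra ℂ B]
    [Algebra.Smooth ℂ B] [Algebra (X.A.R ⧸ p) B] (f : X.A.R →ₐ[ℂ] B)
    (hf : ∀ a, f a = algebraMap (X.A.R ⧸ p) B (Ideal.Quotient.mk p a))
    (h : X.A.R) [IsLocalization.Away (Ideal.Quotient.mk p h) B] (lam : Fin n → ℤ)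
    (hlam : ∃ i j, lam i ≠ lam j) (a b : Matrix.SpecialLinearGroup (Fin n) (Polynomial B))
    (hab : Matrix.GeneralLinearGroup.map (lmap (algebraMap (X.A.R ⧸ p) B))
      (Matrix.GeneralLinearGroup.map (lmap (Ideal.Quotient.mk p)) X.g) * negGL n B b =
        posGL n B a * monoGL B lam) :
    ∃ (Y : BunObj n d) (ρ : X ⟶ Y) (lam : Fin n → ℤ),
      (∃ i j, lam i ≠ lam j) ∧ Y.g = monoGL Y.A.R lam ∧
      (letI : Module X.A.R Y.A.R := Module.compHom Y.A.R ((Bun n d).res ρ).toRingHom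
       ∃ u : (X.A.R ⧸ p) →ₗ[X.A.R] Y.A.R, IsLocalizedModule (Submonoid.powers h) u) := by
  obtain ⟨k, hk, hg⟩ := X.det_g
  have hf' : (algebraMap (X.A.R ⧸ p) B).comp (Ideal.Quotient.mk p) = (f : X.A.R →+* B) :=
    RingHom.ext fun a => (hf a).symm
  rw [GLmap_comp, hf'] at hab
  have e0 : monoGL B lam * negGL n B b⁻¹ = posGL n B a⁻¹ *
      Matrix.GeneralLinearGroup.map (lmap (f : X.A.R →+* B)) X.g := by
    rw [map_inv, map_inv, mul_inv_eq_iff_eq_mul, mul_assoc, eq_inv_mul_iff_mul_eq]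
    exact hab.symm
  have hdet : (monoGL B lam : Matrix (Fin n) (Fin n) B[T;T⁻¹]).det =
      T (((n / d : ℕ) : ℤ) * (k : ℤ)) := by
    have h1 := congrArg (fun g : Matrix.GeneralLinearGroup (Fin n) B[T;T⁻¹] =>
      (g : Matrix (Fin n) (Fin n) B[T;T⁻¹]).det) e0
    simp only [Units.val_mul, Matrix.det_mul, det_posGL, det_negGL, one_mul, mul_one] at h1
    rw [h1]
    exact det_GLmap _ X.g hg
  let Y : BunObj n d := ⟨⟨B⟩, monoGL B lam, ⟨k, hk, hdet⟩,
    transport (f : X.A.R →+* B) a⁻¹ b⁻¹ X.S, X.framing.transport (f : X.A.R →+* B) e0⟩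
  let ρ : X ⟶ Y := (⟨f, a⁻¹, b⁻¹, e0⟩ : BunHom X Y)
  refine ⟨Y, ρ, lam, hlam, rfl, ?_⟩
  let : Module X.A.R B := Module.compHom B f.toRingHom
  have hB : ∀ (a : X.A.R) (x : B), a • x =
      algebraMap (X.A.R ⧸ p) B (Ideal.Quotient.mk p a) * x := fun a x => by
    rw [← hf]
    rfl
  have hD : ∀ (a : X.A.R) (x : X.A.R ⧸ p), a • x = Ideal.Quotient.mk p a * x :=
    fun a x => Algebra.smul_def a x
  let u : (X.A.R ⧸ p) →ₗ[X.A.R] B :=
    { toFun := algebraMap (X.A.R ⧸ p) B
      map_add' := map_add _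
      map_smul' := fun a x => by
        rw [hD, map_mul, RingHom.id_apply]
        exact (hB a _).symm }
  exact ⟨u, isLocalizedModule_of_isLocalization (Ideal.Quotient.mk p) h hD hB u fun _ => rfl⟩

theorem exists_test (hn : 0 < n) (hdn : d ∣ n) (X : BunObj n d) (p : Ideal X.A.R) [hp : p.IsPrime]
    (hθ : X.th ∈ p) :
    ∃ h : X.A.R, h ∉ p ∧ ∃ (Y : BunObj n d) (ρ : X ⟶ Y) (lam : Fin n → ℤ),
      (∃ i j, lam i ≠ lam j) ∧ Y.g = monoGL Y.A.R lam ∧
      (letI : Module X.A.R Y.A.R := Module.compHom Y.A.R ((Bun n d).res ρ).toRingHom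
       ∃ u : (X.A.R ⧸ p) →ₗ[X.A.R] Y.A.R, IsLocalizedModule (Submonoid.powers h) u) := by
  have hfr : IsFraming (Matrix.GeneralLinearGroup.map (lmap (Ideal.Quotient.mk p)) X.g)
      (bcU n (Ideal.Quotient.mk p) X.S) := X.framing.bc _
  obtain ⟨k, hk, hg⟩ := X.det_g
  have hgD := det_GLmap (Ideal.Quotient.mk p) X.g hg
  have hθD : theta (Matrix.GeneralLinearGroup.map (lmap (Ideal.Quotient.mk p)) X.g)
      (bcU n (Ideal.Quotient.mk p) X.S) = 0 := by
    rw [theta_bc _ X.framing]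
    exact Ideal.Quotient.eq_zero_iff_mem.2 hθ
  obtain ⟨h₂, hh₂, lam, hlam, a, b, hab⟩ := generic_split _ _ hfr
    (k := ((n / d : ℕ) : ℤ) * (k : ℤ)) (by positivity) (det_bound hn hdn hk) hgD hθD
  have : Algebra.FiniteType ℂ X.A.R := inferInstance
  have : Algebra.FiniteType ℂ (X.A.R ⧸ p) :=
    Algebra.FiniteType.of_surjective (Ideal.Quotient.mkₐ ℂ p) (Ideal.Quotient.mkₐ_surjective ℂ p)
  obtain ⟨h₁, hne, hsm⟩ := exists_smooth_loc h₂ hh₂
  obtain ⟨a', b', hab'⟩ := split_localize h₂ h₁ _ lam a b hab (Localization.Away (h₂ * h₁))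
  obtain ⟨h, hh⟩ := Ideal.Quotient.mk_surjective (h₂ * h₁)
  refine ⟨h, ?_, ?_⟩
  · intro hhp
    apply hne
    rw [← hh]
    exact Ideal.Quotient.eq_zero_iff_mem.2 hhp
  · have : IsLocalization.Away (Ideal.Quotient.mk p h) (Localization.Away (h₂ * h₁)) := by
      rw [hh]
      infer_instance
    exact exists_test_aux X p (Localization.Away (h₂ * h₁))
      ((IsScalarTower.toAlgHom ℂ (X.A.R ⧸ p) (Localization.Away (h₂ * h₁))).comp
        (Ideal.Quotient.mkₐ ℂ p)) (fun _ => rfl) h lam hlam a' b' hab'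

end

end Vale.Agent.P286
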